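import Crest.Agent.X212.Num57.Form
import Crest.Agent.X212.Int54.Stokes
import Crest.Agent.X212.Dr59.Coh
import Crest.Agent.X212.Num57.Cof
import Crest.Agent.X212.Int54.Link

-- ▼ part X212/Num57/Nat
section

/-!
X212 / NUM (helper57), part 7: locality, naturality and the characteristic numbers.

* `c1_congr`, `c2_congr`, `pm_c1`, `pm_c2`, `Co.pm`, `Itw.pm`;
* `integ_c2` : independence of the connection (closed `M`), `integ_c2_rel` (compact support);
* `cw I o T` : the number `∫ tr (T F F)`; `cw_eq`, `cw_iso`, `cw_pm`, `cw_neg`, `cw_add`;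
* `tp_c2_pm` : forms pulled back from a manifold of lower dimension have no top part.
-/

set_option autoImplicit false
set_option linter.unusedSectionVars false

open Set Filter Topology Function Matrix Module
open scoped ContDiff Manifold
open Crest.Agent.R208 Crest.Agent.R208.F Crest.Agent.R208.FI Crest.Agent.X212.Dr59
open Crest.Agent.X212.Int54

noncomputable section

namespace Crest.Agent.X212.Num57

variable {E : Type*} [NormedAddCommGroup E] [NormedSpace ℝ E] [FiniteDimensional ℝ E]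
  {H : Type*} [TopologicalSpace H] {I : ModelWithCorners ℝ E H}
  {M : Type*} [TopologicalSpace M] [ChartedSpace H M] [I.Boundaryless] [IsManifold I ∞ M]
  {E' : Type*} [NormedAddCommGroup E'] [NormedSpace ℝ E'] [FiniteDimensional ℝ E']
  {H' : Type*} [TopologicalSpace H'] {J : ModelWithCorners ℝ E' H'}
  {N : Type*} [TopologicalSpace N] [ChartedSpace H' N] [J.Boundaryless] [IsManifold J ∞ N]
  {κ κ' : Type*} [Fintype κ] [Fintype κ'] [DecidableEq κ] [DecidableEq κ'] {m n : Type*}

/-- evaluation at a point -/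
abbrev ea (x : M) : (M → Ext E) →ₐ[ℝ] Ext E := Pi.evalAlgHom ℝ (fun _ : M => Ext E) x

theorem c1_at (C T : Matrix κ κ (M → Ext E)) (x : M) : c1 I C T x
    = trace (T.map (ea x) * cuP (C.map (ea x)) ((md I C).map (ea x))) := by
  rw [← mp_cuP, ← mp_mul, ← map_tr]; rfl

theorem c2_at (C T : Matrix κ κ (M → Ext E)) (x : M) : c2 I C T x
    = trace (T.map (ea x) * (cuP (C.map (ea x)) ((md I C).map (ea x))
      * cuP (C.map (ea x)) ((md I C).map (ea x)))) := by
  rw [← mp_cuP, ← mp_mul, ← mp_mul, ← map_tr]; rfl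

section loc
variable {C C' T T' : Matrix κ κ (M → Ext E)} {x : M}

theorem ea_congr {X Y : Matrix m n (M → Ext E)} (h : ∀ i j, X i j x = Y i j x) :
    X.map (ea x) = Y.map (ea x) := by
  ext i j; exact h i j

theorem ea_md_congr {X Y : Matrix m n (M → Ext E)} (h : ∀ i j, X i j =ᶠ[𝓝 x] Y i j) :
    (md I X).map (ea x) = (md I Y).map (ea x) := by
  ext i j; exact dM_congr (h i j)

theorem c1_congr (h : ∀ i j, C i j =ᶠ[𝓝 x] C' i j) (hT : ∀ i j, T i j x = T' i j x) :
    c1 I C T x = c1 I C' T' x := by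
  rw [c1_at, c1_at, ea_congr hT, ea_md_congr h, ea_congr fun i j => (h i j).self_of_nhds]

theorem c2_congr (h : ∀ i j, C i j =ᶠ[𝓝 x] C' i j) (hT : ∀ i j, T i j x = T' i j x) :
    c2 I C T x = c2 I C' T' x := by
  rw [c2_at, c2_at, ea_congr hT, ea_md_congr h, ea_congr fun i j => (h i j).self_of_nhds]

theorem tg1_zero (h : ∀ i j, C' i j x = C i j x) : tg1 C C' T x = 0 := by
  have : (C' - C).map (ea x) = 0 := by rw [mp_sub, ea_congr h, sub_self]
  change ea x (trace _) = 0
  rw [map_tr, mp_mul, this, Matrix.mul_zero, trace_zero]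

theorem tg2_zero (h : ∀ i j, C' i j x = C i j x) : tg2 I C C' T x = 0 := by
  have : (C' - C).map (ea x) = 0 := by rw [mp_sub, ea_congr h, sub_self]
  change ea x (trace _) = 0
  rw [map_tr, mp_mul, mp_csP, this, csP]
  simp

theorem c1_add (C T T' : Matrix κ κ (M → Ext E)) : c1 I C (T + T') = c1 I C T + c1 I C T' := by
  simp [c1, add_mul]
theorem c2_add (C T T' : Matrix κ κ (M → Ext E)) : c2 I C (T + T') = c2 I C T + c2 I C T' := by
  simp [c2, add_mul]
theorem c1_smul (C T : Matrix κ κ (M → Ext E)) (r : ℝ) : c1 I C (r • T) = r • c1 I C T := by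
  simp [c1]
theorem c2_smul (C T : Matrix κ κ (M → Ext E)) (r : ℝ) : c2 I C (r • T) = r • c2 I C T := by
  simp [c2]

end loc

section alg
variable {U : Set M} {C : Matrix κ κ (M → Ext E)} {C' : Matrix κ' κ' (M → Ext E)}
  {u u' : Matrix κ' κ (M → Ext E)}

theorem Itw.add (h : Itw I U C C' u) (h' : Itw I U C C' u') : Itw I U C C' (u + u') :=
  ⟨h.sm.add h'.sm, fun i j x hx => by
    rw [Matrix.add_apply, Pi.add_apply, map_add, h.ev i j x hx, h'.ev i j x hx],
    fun i j x hx => by
      have e : md I (u + u') i j x = (md I u + md I u') i j x :=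
        dM_add ne0 (h.sm i j x hx) (h'.sm i j x hx)
      have e1 := h.eq i j x hx
      have e2 := h'.eq i j x hx
      rw [Matrix.mul_add, Matrix.add_mul]
      simp only [Matrix.add_apply, Matrix.sub_apply, Pi.add_apply, Pi.sub_apply, Matrix.zero_apply,
        Pi.zero_apply] at e e1 e2 ⊢
      rw [e, ← add_zero (0 : Ext E)]
      nth_rewrite 1 [← e1]
      rw [← e2]; abel⟩

theorem Itw.smul (r : ℝ) (h : Itw I U C C' u) : Itw I U C C' (r • u) :=
  ⟨h.sm.smul r, fun i j x hx => by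
    rw [Matrix.smul_apply, Pi.smul_apply, map_smul, h.ev i j x hx],
    fun i j x hx => by
      have e : md I (r • u) i j x = r • md I u i j x := dM_smul ne0 r (h.sm i j x hx)
      have e1 := h.eq i j x hx
      rw [Matrix.mul_smul, Matrix.smul_mul]
      simp only [Matrix.add_apply, Matrix.sub_apply, Pi.add_apply, Pi.sub_apply, Matrix.zero_apply,
        Pi.zero_apply, Matrix.smul_apply, Pi.smul_apply] at e e1 ⊢
      rw [e, ← smul_add, ← smul_sub, e1, smul_zero]⟩

theorem Itw.congr (hU : IsOpen U) (h : Itw I U C C' u) (e : EqO U u' u) : Itw I U C C' u' := by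
  have ev : ∀ i j, ∀ x ∈ U, u' i j =ᶠ[𝓝 x] u i j := fun i j x hx =>
    mem_of_superset (hU.mem_nhds hx) fun y hy => e i j y hy
  refine ⟨fun i j x hx => (h.sm i j x hx).congr (ev i j x hx), fun i j x hx => by
    rw [e i j x hx, h.ev i j x hx], fun i j x hx => ?_⟩
  rw [← h.eq i j x hx]
  have : (md I u' + C' * u' - u' * C).map (ea x) = (md I u + C' * u - u * C).map (ea x) := by
    simp only [mp_sub, mp_add, mp_mul]
    rw [ea_md_congr fun i j => ev i j x hx, ea_congr fun i j => e i j x hx]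
  exact congrFun (congrFun this i) j

end alg

/-! ### pull-back -/

variable (J I) in
/-- pull-back as an algebra map -/
def pa (f : N → M) : (M → Ext E) →ₐ[ℝ] (N → Ext E') :=
  AlgHom.ofLinearMap
    { toFun := pm J I f, map_add' := pm_add f, map_smul' := pm_smul f }
    (funext fun _ => map_one (pb _)) (pm_mul f)

theorem pa_apply (f : N → M) (a : M → Ext E) : pa I J f a = pm J I f a := rfl

section pull
variable {f : N → M} {W : Set N} {U : Set M} {y : N}

theorem MS.pm {X : Matrix m n (M → Ext E)} (h : MS I U X) (hf : Mp J I W U f) :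
    MS J W (X.map (pa I J f)) := fun i j y hy => SmAt.pm (hf.sm y hy) (h i j _ (hf.maps hy))

theorem md_pm {X : Matrix m n (M → Ext E)} (hf : ContMDiffAt J I ∞ f y)
    (h : ∀ i j, SmAt I (X i j) (f y)) :
    (md J (X.map (pa I J f))).map (ea y) = ((md I X).map (pa I J f)).map (ea y) := by
  ext i j; exact dM_pm ne0 hf (h i j)

theorem pm_c1 {C : Matrix κ κ (M → Ext E)} (T : Matrix κ κ (M → Ext E))
    (hf : ContMDiffAt J I ∞ f y) (h : ∀ i j, SmAt I (C i j) (f y)) :
    c1 J (C.map (pa I J f)) (T.map (pa I J f)) y = pm J I f (c1 I C T) y := by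
  rw [c1_at, md_pm hf h, ← mp_cuP, ← mp_mul, ← map_tr, ← mp_cuP, ← mp_mul, ← map_tr]; rfl

theorem pm_c2 {C : Matrix κ κ (M → Ext E)} (T : Matrix κ κ (M → Ext E))
    (hf : ContMDiffAt J I ∞ f y) (h : ∀ i j, SmAt I (C i j) (f y)) :
    c2 J (C.map (pa I J f)) (T.map (pa I J f)) y = pm J I f (c2 I C T) y := by
  rw [c2_at, md_pm hf h, ← mp_cuP, ← mp_mul, ← mp_mul, ← map_tr, ← mp_cuP, ← mp_mul, ← mp_mul,
    ← map_tr]; rfl

theorem Ev.pm {X : Matrix m n (M → Ext E)} (h : Ev U X) (hf : MapsTo f W U) :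
    Ev W (X.map (pa I J f)) := fun i j y hy => by
  change F.inv (pb _ _) = pb _ _
  rw [← pb_inv, h i j _ (hf hy)]

theorem Od.pm {X : Matrix m n (M → Ext E)} (h : Od U X) (hf : MapsTo f W U) :
    Od W (X.map (pa I J f)) := fun i j y hy => by
  change F.inv (pb _ _) = -pb _ _
  rw [← pb_inv, h i j _ (hf hy), map_neg]

theorem EqO.pm {X Y : Matrix m n (M → Ext E)} (h : EqO U X Y) (hf : MapsTo f W U) :
    EqO W (X.map (pa I J f)) (Y.map (pa I J f)) := fun i j _ hy => pm_congr_right (h i j _ (hf hy))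

theorem Co.pm {C : Matrix κ κ (M → Ext E)} (h : Co I U C) (hf : Mp J I W U f) :
    Co J W (C.map (pa I J f)) := ⟨h.sm.pm hf, h.od.pm hf.maps⟩

theorem Itw.pm {C : Matrix κ κ (M → Ext E)} {C' : Matrix κ' κ' (M → Ext E)}
    {u : Matrix κ' κ (M → Ext E)} (h : Itw I U C C' u) (hf : Mp J I W U f) :
    Itw J W (C.map (pa I J f)) (C'.map (pa I J f)) (u.map (pa I J f)) := by
  refine ⟨h.sm.pm hf, h.ev.pm hf.maps, fun i j y hy => ?_⟩
  have e := h.eq.pm (J := J) (I := I) hf.maps i j y hy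
  rw [mp_zero] at e
  rw [← e]
  have : (md J (u.map (pa I J f)) + C'.map (pa I J f) * u.map (pa I J f)
      - u.map (pa I J f) * C.map (pa I J f)).map (ea y)
      = ((md I u + C' * u - u * C).map (pa I J f)).map (ea y) := by
    simp only [mp_sub, mp_add, mp_mul]
    rw [md_pm (hf.sm y hy) fun i j => h.sm i j _ (hf.maps hy)]
  exact congrFun (congrFun this i) j

/-- a form pulled back through a map of rank less than the dimension has no top part -/
theorem tp_pm_lt (h : finrank ℝ E < finrank ℝ E') (f : N → M) (a : M → Ext E) (y : N) :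
    tp E' (pm J I f a y) = 0 := by
  rw [tp_apply, pm_apply, evA_pb]
  apply AlternatingMap.map_linearDependent
  intro hl
  have := hl.fintype_card_le_finrank
  rw [Fintype.card_fin] at this
  omega

theorem tp_c2_pm (h : finrank ℝ E < finrank ℝ E') {C : Matrix κ κ (M → Ext E)}
    (T : Matrix κ κ (M → Ext E)) (hf : ContMDiffAt J I ∞ f y) (hC : ∀ i j, SmAt I (C i j) (f y)) :
    tp E' (c2 J (C.map (pa I J f)) (T.map (pa I J f)) y) = 0 := by
  rw [pm_c2 T hf hC, tp_pm_lt h]

end pull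

/-! ### numbers -/

variable [MeasurableSpace E] [BorelSpace E] [MeasurableSpace M] [BorelSpace M]
  [SecondCountableTopology M] [T2Space M]
  [MeasurableSpace E'] [BorelSpace E'] [MeasurableSpace N] [BorelSpace N]
  [SecondCountableTopology N] [T2Space N]

section num
variable {o : M → Ext E} {C C₁ T T₁ : Matrix κ κ (M → Ext E)}

theorem c0 {a : M → Ext E} (h : ∀ x, SmAt I a x) (x : M) : CAt I 0 a x := (h x).of_le (by simp)

/-- a compactly supported change of the connection -/
theorem integ_c2_rel (ho : Ori I o) (hC : Co I univ C) (hC₁ : Co I univ C₁) (h : Pa I univ C T)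
    (h₁ : Pa I univ C₁ T) {K : Set M} (hK : IsCompact K) (e : EqO Kᶜ C₁ C) :
    integ I o (c2 I C₁ T - c2 I C T) = 0 := by
  have e1 : c2 I C₁ T - c2 I C T = dM I (tg2 I C C₁ T) := funext fun x => by
    rw [Pi.sub_apply, c2_sub isOpen_univ hC hC₁ h h₁ (mem_univ x), add_sub_cancel_left]
  rw [e1]
  exact stokes_sm ho (fun x => hC.sm.tg2 hC₁.sm h.sm (mem_univ x))
    (HasCompactSupport.intro hK fun x hx => tg2_zero fun i j => e i j x hx)

variable [CompactSpace M]

theorem intOn_c2 (ho : Ori I o) (hC : MS I univ C) (hT : MS I univ T) (s : Set M) :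
    IntOn I o (c2 I C T) s := ho.intOn (c0 fun x => hC.c2 hT (mem_univ x)) s

/-- **independence of the connection** -/
theorem integ_c2 (ho : Ori I o) (hC : Co I univ C) (hC₁ : Co I univ C₁) (h : Pa I univ C T)
    (h₁ : Pa I univ C₁ T) : integ I o (c2 I C₁ T) = integ I o (c2 I C T) := by
  rw [← sub_eq_zero, ← integ_sub (intOn_c2 ho hC₁.sm h.sm _) (intOn_c2 ho hC.sm h.sm _)]
  exact integ_c2_rel ho hC hC₁ h h₁ isCompact_univ fun _ _ _ hx => (hx (mem_univ _)).elim

/-- the pairing of the first form with a closed even form -/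
theorem integ_c1_mul (ho : Ori I o) (hC : Co I univ C) (hC₁ : Co I univ C₁) (h : Pa I univ C T)
    (h₁ : Pa I univ C₁ T) {b : M → Ext E} (hb : ∀ x, SmAt I b x) (hd : ∀ x, dM I b x = 0) :
    integ I o (c1 I C₁ T * b) = integ I o (c1 I C T * b) := by
  have s := fun x => hC.sm.tg1 hC₁.sm h.sm (mem_univ x)
  have e1 : c1 I C₁ T * b = c1 I C T * b + dM I (tg1 C C₁ T * b) := funext fun x => by
    rw [Pi.add_apply, dM_mul ne0 (s x) (hb x), hd, mul_zero, add_zero, Pi.mul_apply,
      c1_sub isOpen_univ hC hC₁ h h₁ (mem_univ x), add_mul, Pi.mul_apply]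
  rw [e1, integ_add (ho.intOn (c0 fun x => (hC.sm.c1 h.sm (mem_univ x)).mul (hb x)) _)
    (ho.intOn (c0 fun x => SmAt.dM ((s x).mul (hb x))) _),
    stokes_closed ho fun x => (s x).mul (hb x), add_zero]

omit [CompactSpace M] in
variable (I) in
/-- `T` is parallel for some connection -/
def HasC (T : Matrix κ κ (M → Ext E)) : Prop := ∃ C, Co I univ C ∧ Pa I univ C T

omit [CompactSpace M] in
variable (I) in
open Classical in
/-- the characteristic number `∫ tr (T F F)` -/
def cw (o : M → Ext E) (T : Matrix κ κ (M → Ext E)) : ℝ :=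
  if h : HasC I T then integ I o (c2 I h.choose T) else 0

theorem cw_eq (ho : Ori I o) (hC : Co I univ C) (h : Pa I univ C T) :
    cw I o T = integ I o (c2 I C T) := by
  have h' : HasC I T := ⟨C, hC, h⟩
  rw [cw, dif_pos h']
  exact integ_c2 ho hC h'.choose_spec.1 h h'.choose_spec.2

omit [CompactSpace M] in
theorem cw_neg (o : M → Ext E) (T : Matrix κ κ (M → Ext E)) : cw I (-o) T = -cw I o T := by
  unfold cw
  split_ifs
  · exact integ_neg_ori _ _
  · simp

omit [CompactSpace M] in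
theorem cw_ori {o' : M → Ext E} (ho : Ori I o) (ho' : Ori I o') (h : SameOn o o' univ)
    (T : Matrix κ κ (M → Ext E)) : cw I o T = cw I o' T := by
  unfold cw
  split_ifs
  · exact integ_congr_ori ho ho' h _
  · rfl

theorem cw_add (ho : Ori I o) (hC : Co I univ C) (h : Pa I univ C T) (h₁ : Pa I univ C T₁) :
    cw I o (T + T₁) = cw I o T + cw I o T₁ := by
  rw [cw_eq ho hC h, cw_eq ho hC h₁, cw_eq ho hC (h.add h₁), c2_add,
    integ_add (intOn_c2 ho hC.sm h.sm _) (intOn_c2 ho hC.sm h₁.sm _)]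

theorem cw_smul (ho : Ori I o) (hC : Co I univ C) (h : Pa I univ C T) (r : ℝ) :
    cw I o (r • T) = r * cw I o T := by
  rw [cw_eq ho hC h, cw_eq ho hC (h.smul r), c2_smul, integ_smul]

/-- **invariance under isomorphisms**: `v u` is a parallel projector under which `T` lies -/
theorem cw_iso (ho : Ori I o) (hC : Co I univ C) (h : Pa I univ C T)
    {u : Matrix κ' κ (M → Ext E)} {v : Matrix κ κ' (M → Ext E)} (hu : MS I univ u)
    (hv : MS I univ v) (eu : Ev univ u) (ev : Ev univ v) (hp : Pa I univ C (v * u))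
    (h1 : u * (v * u) = u) (h2 : v * u * v = v) (h3 : T * (v * u) = T) :
    cw I o (u * T * v) = cw I o T := by
  have hC' := tpt_co isOpen_univ hC hu hv eu ev
  have iu := tpt_u isOpen_univ hC.sm hu hv eu ev hp fun i j x _ => by rw [h1]
  have iv := tpt_v isOpen_univ hC.sm hu hv ev hp fun i j x _ => by rw [h2]
  rw [cw_eq ho hC h, cw_eq ho hC' (Itw.mul isOpen_univ hC'.sm hC.sm hC'.sm
    (Itw.mul isOpen_univ hC.sm hC.sm hC'.sm iu h) iv)]
  congr 1
  funext x
  exact Itw.tr2 isOpen_univ hC hC'.sm iu iv h.sm (fun i j x _ => by rw [h3]) (mem_univ x)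

/-- **invariance under orientation preserving diffeomorphisms** -/
theorem cw_pm [CompactSpace N] (hd : finrank ℝ E = finrank ℝ E') {o' : N → Ext E'} (ho : Ori I o)
    (ho' : Ori J o') {f : N → M} (hf : ContMDiff J I ∞ f) (hb : Bijective f)
    (hp : SameOn o' (pm J I f o) univ) (h : HasC I T) :
    cw J o' (T.map (pa I J f)) = cw I o T := by
  obtain ⟨C, hC, h⟩ := h
  have mp : Mp J I univ univ f := Mp.of_contMDiff hf (mapsTo_univ _ _)
  rw [cw_eq ho hC h, cw_eq ho' (hC.pm mp) (h.pm mp), integ_bij hd ho ho' hf hb hp]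
  congr 1
  funext y
  exact pm_c2 T (hf y) fun i j => hC.sm i j _ (mem_univ _)

/-- the number vanishes for data pulled back from a lower dimension -/
theorem cw_pm_lt [CompactSpace N] (hd : finrank ℝ E < finrank ℝ E') {o' : N → Ext E'}
    (ho' : Ori J o') {f : N → M} (hf : ContMDiff J I ∞ f) (h : HasC I T) :
    cw J o' (T.map (pa I J f)) = 0 := by
  obtain ⟨C, hC, h⟩ := h
  have mp : Mp J I univ univ f := Mp.of_contMDiff hf (mapsTo_univ _ _)
  rw [cw_eq ho' (hC.pm mp) (h.pm mp), integ_congr (b := 0) fun y => by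
    rw [tp_c2_pm hd T (hf y) fun i j => hC.sm i j _ (mem_univ _)]; simp]
  simp [integ]

omit [CompactSpace M] in
theorem hasC_idem (hT : MS I univ T) (eT : Ev univ T) (h : T * T = T) : HasC I T :=
  ⟨gr I T, gr_co isOpen_univ hT eT, gr_pa isOpen_univ hT eT fun i j x _ => by rw [h]⟩

end num

end Crest.Agent.X212.Num57
end
end

-- ▼ part X212/Num57/Cnn

/-!
X212 / NUM (helper57), part 8: connections in frame components (`Wz78`) as matrices of forms.

* `mx T` : matrix of a linear map;  `f0 T` : a field of linear maps as a matrix of 0-forms;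
* `cn F A` : the matrix of one-forms of the connection `A`;  `k2_cu : components of cu = curv`;
* `itw_cn` : parallel maps are intertwiners;
* `cwd F o T A` : the density `∑ o_abcd tr (T F_ab F_cd)`;  `rat_c2 : rat (vol F o) (c2 ..) = cwd / 4`.
-/

set_option autoImplicit false
set_option linter.unusedSectionVars false

open Finset Module Filter Topology Matrix
open scoped Manifold ContDiff
open Crest.Agent.R208 Crest.Agent.R208.F Crest.Agent.R208.FI Crest.Agent.X212.Dr59
open Crest.Agent.X212.Int54 Crest.Agent.X212.An Crest.Agent.X212.Sob92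
open Crest.Agent.X212.Wz78 (SA frm frPr curv)

noncomputable section

namespace Crest.Agent.X212.Num57

section lin
variable {V W X : Type} [NormedAddCommGroup V] [NormedSpace ℝ V] [FiniteDimensional ℝ V]
  [NormedAddCommGroup W] [NormedSpace ℝ W] [FiniteDimensional ℝ W]
  [NormedAddCommGroup X] [NormedSpace ℝ X] [FiniteDimensional ℝ X]

/-- index type of the chosen basis -/
abbrev Ix (V : Type) [NormedAddCommGroup V] [NormedSpace ℝ V] : Type := Fin (finrank ℝ V)

/-- the matrix of a linear map -/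
def mx (T : V →L[ℝ] W) : Matrix (Ix W) (Ix V) ℝ :=
  LinearMap.toMatrix (finBasis ℝ V) (finBasis ℝ W) (T : V →ₗ[ℝ] W)

/-- a matrix entry, as a continuous functional -/
def en (i : Ix W) (j : Ix V) : (V →L[ℝ] W) →L[ℝ] ℝ := LinearMap.toContinuousLinearMap
  { toFun := fun T => mx T i j
    map_add' := fun S T => by simp [mx]
    map_smul' := fun r T => by simp [mx] }

theorem en_apply (i : Ix W) (j : Ix V) (T : V →L[ℝ] W) : en i j T = mx T i j := rfl

theorem mx_comp (S : W →L[ℝ] X) (T : V →L[ℝ] W) : mx (S ∘L T) = mx S * mx T :=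
  LinearMap.toMatrix_comp _ _ _ _ _

theorem mx_mul (S T : V →L[ℝ] V) : mx (S * T) = mx S * mx T := mx_comp S T

theorem mx_one : mx (1 : V →L[ℝ] V) = 1 := LinearMap.toMatrix_id _

theorem mx_add (S T : V →L[ℝ] W) : mx (S + T) = mx S + mx T := by
  ext i j; exact map_add (en i j) S T
theorem mx_sub (S T : V →L[ℝ] W) : mx (S - T) = mx S - mx T := by
  ext i j; exact map_sub (en i j) S T
theorem mx_smul (r : ℝ) (T : V →L[ℝ] W) : mx (r • T) = r • mx T := by
  ext i j; exact map_smul (en i j) r T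
theorem mx_zero : mx (0 : V →L[ℝ] W) = 0 := by
  ext i j; exact map_zero (en i j)

/-- the trace -/
def tr (T : V →L[ℝ] V) : ℝ := LinearMap.trace ℝ V (T : V →ₗ[ℝ] V)

theorem tr_mx (T : V →L[ℝ] V) : tr T = trace (mx T) :=
  LinearMap.trace_eq_matrix_trace ℝ (finBasis ℝ V) _

end lin

variable {E : Type} [NormedAddCommGroup E] [NormedSpace ℝ E] [FiniteDimensional ℝ E]
  [MeasurableSpace E] [BorelSpace E]
  {HM : Type} [TopologicalSpace HM] {I : ModelWithCorners ℝ E HM} [I.Boundaryless]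
  {M : Type} [TopologicalSpace M] [ChartedSpace HM M] [IsManifold I ∞ M]
  [MeasurableSpace M] [BorelSpace M] [SecondCountableTopology M] {ι : Type} [Fintype ι]
  {V W X : Type} [NormedAddCommGroup V] [NormedSpace ℝ V] [FiniteDimensional ℝ V]
  [NormedAddCommGroup W] [NormedSpace ℝ W] [FiniteDimensional ℝ W]
  [NormedAddCommGroup X] [NormedSpace ℝ X] [FiniteDimensional ℝ X]

section f0
variable {κ m n : Type} [Fintype κ]

variable (E) in
/-- a field of real matrices as a matrix of forms of degree zero -/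
def fz (T : M → Matrix m n ℝ) : Matrix m n (M → Ext E) := Matrix.of fun i j => fn E fun x => T x i j

theorem fz_mul (S : M → Matrix m κ ℝ) (T : M → Matrix κ n ℝ) :
    fz E (fun x => S x * T x) = fz E S * fz E T := by
  ext i j x
  simp [fz, fn, Matrix.mul_apply, Finset.sum_apply, map_sum]

theorem fz_add (S T : M → Matrix m n ℝ) : fz E (fun x => S x + T x) = fz E S + fz E T := by
  ext i j x; simp [fz, fn]
theorem fz_sub (S T : M → Matrix m n ℝ) : fz E (fun x => S x - T x) = fz E S - fz E T := by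
  ext i j x; simp [fz, fn]
theorem fz_smul (r : ℝ) (T : M → Matrix m n ℝ) : fz E (fun x => r • T x) = r • fz E T := by
  ext i j x; simp [fz, fn, Algebra.smul_def]
theorem fz_one [DecidableEq κ] : fz E (fun _ : M => (1 : Matrix κ κ ℝ)) = 1 := by
  ext i j x
  by_cases h : i = j
  · subst h; simp [fz, fn]
  · simp [fz, fn, Matrix.one_apply_ne h]

theorem fz_ev (U : Set M) (T : M → Matrix m n ℝ) : Ev U (fz E T) :=
  fun _ _ _ _ => AlgHom.commutes _ _

theorem fz_ms {U : Set M} {T : M → Matrix m n ℝ} (h : ∀ i j, ∀ x ∈ U, SA I (fun x => T x i j) x) :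
    MS I U (fz E T) := fun i j x hx => cAt_fn le_rfl (h i j x hx)

theorem fz_congr {U : Set M} {S T : M → Matrix m n ℝ} (h : ∀ x ∈ U, S x = T x) :
    EqO U (fz E S) (fz E T) := fun i j x hx => by simp [fz, fn, h x hx]

theorem fz_pa {E' : Type} [NormedAddCommGroup E'] [NormedSpace ℝ E'] [FiniteDimensional ℝ E']
    {H' : Type} [TopologicalSpace H'] {J : ModelWithCorners ℝ E' H'}
    {N : Type} [TopologicalSpace N] [ChartedSpace H' N] (f : N → M) (T : M → Matrix m n ℝ) :
    (fz E T).map (pa I J f) = fz E' fun y => T (f y) := by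
  ext i j y
  exact congrFun (pm_fn f fun x => T x i j) y

end f0

variable (E) in
/-- a field of linear maps as a matrix of forms of degree zero -/
def f0 (T : M → V →L[ℝ] W) : Matrix (Ix W) (Ix V) (M → Ext E) := fz E fun x => mx (T x)

theorem f0_comp (S : M → W →L[ℝ] X) (T : M → V →L[ℝ] W) :
    f0 E (fun x => S x ∘L T x) = f0 E S * f0 E T := by
  simp only [f0, mx_comp, fz_mul]
theorem f0_mul (S T : M → V →L[ℝ] V) : f0 E (fun x => S x * T x) = f0 E S * f0 E T := f0_comp S T
theorem f0_add (S T : M → V →L[ℝ] W) : f0 E (fun x => S x + T x) = f0 E S + f0 E T := by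
  simp only [f0, mx_add, fz_add]
theorem f0_sub (S T : M → V →L[ℝ] W) : f0 E (fun x => S x - T x) = f0 E S - f0 E T := by
  simp only [f0, mx_sub, fz_sub]
theorem f0_smul (r : ℝ) (T : M → V →L[ℝ] W) : f0 E (fun x => r • T x) = r • f0 E T := by
  simp only [f0, mx_smul, fz_smul]
theorem f0_ev (U : Set M) (T : M → V →L[ℝ] W) : Ev U (f0 E T) := fz_ev U _
theorem sa_en {T : M → V →L[ℝ] W} {x : M} (h : SA I T x) (i : Ix W) (j : Ix V) :
    SA I (fun x => mx (T x) i j) x := (en i j).contDiff.contMDiff.contMDiffAt.comp x h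
theorem f0_ms {U : Set M} {T : M → V →L[ℝ] W} (h : ∀ x ∈ U, SA I T x) : MS I U (f0 E T) :=
  fz_ms fun i j x hx => sa_en (h x hx) i j
theorem f0_congr {U : Set M} {S T : M → V →L[ℝ] W} (h : ∀ x ∈ U, S x = T x) :
    EqO U (f0 E S) (f0 E T) := fz_congr fun x hx => by rw [h x hx]

variable (F : Fr I M ι)

/-- the matrix of one-forms of a connection -/
def cn (A : ι → M → V →L[ℝ] V) : Matrix (Ix V) (Ix V) (M → Ext E) :=
  Matrix.of fun i j => fm1 F fun a x => mx (A a x) i j

theorem cn_deg (A : ι → M → V →L[ℝ] V) (i j : Ix V) (x : M) : IsDeg 1 (cn F A i j x) :=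
  deg_fm1 F _ x

theorem cn_co {U : Set M} {A : ι → M → V →L[ℝ] V} (h : ∀ a, ∀ x ∈ U, SA I (A a) x) :
    Co I U (cn F A) :=
  ⟨fun i j x hx => smAt_fm1 F fun a => sa_en (h a x hx) i j, fun i j x _ => by
    rw [inv_of_deg (cn_deg F A i j x)]; simp⟩

theorem k1_cn {A : ι → M → V →L[ℝ] V} {x : M} (h : ∀ a, ∑ b, F.P a b x • A b x = A a x)
    (i j : Ix V) (a : ι) : k1 F (cn F A i j) a x = mx (A a x) i j := by
  rw [cn, Matrix.of_apply, k1_fm1, ← h a, ← en_apply, map_sum]
  exact sum_congr rfl fun b _ => by rw [map_smul]; rfl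

theorem e2_mul {u v : Ext E} (hu : IsDeg 1 u) (x : M) (a b : ι) :
    e2 (u * v) (ee F x a) (ee F x b)
      = e1 u (ee F x a) * e1 v (ee F x b) - e1 u (ee F x b) * e1 v (ee F x a) := by
  conv_lhs => rw [(cf F x).eq1 hu]
  simp only [sum_mul, smul_mul_assoc, e2_sum, e2_smul, e2_io_mul, (cf F x).te]
  simp only [mul_sub, sum_sub_distrib, ← mul_assoc, ← sum_mul]
  have h : ∀ a, ∑ i, e1 u (ee F x i) * F.P i a x = e1 u (ee F x a) := fun a => by
    rw [← (cf F x).p1 u a]
    exact sum_congr rfl fun i _ => by rw [F.P_symm i a, mul_comm]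
  rw [h, h]

theorem e1_fn_mul (r : ℝ) (v : Ext E) (w : E) : e1 (algebraMap ℝ (Ext E) r * v) w = r * e1 v w := by
  rw [← Algebra.smul_def, e1_smul]

theorem e1_mul_fn (r : ℝ) (v : Ext E) (w : E) : e1 (v * algebraMap ℝ (Ext E) r) w = e1 v w * r := by
  rw [← Algebra.commutes, e1_fn_mul, mul_comm]

theorem deg_cu (A : ι → M → V →L[ℝ] V) (i j : Ix V) (x : M) : IsDeg 2 (cu I (cn F A) i j x) := by
  refine IsDeg.add (isDeg_dM (.of_forall fun y => cn_deg F A i j y)) ?_
  rw [Matrix.mul_apply, Finset.sum_apply]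
  exact IsDeg.sum _ fun k _ => T.isDeg_mul (cn_deg F A i k x) (cn_deg F A k j x)

/-- **the curvature in components** -/
theorem k2_cu {A : ι → M → V →L[ℝ] V} {x : M} (hs : ∀ a, SA I (A a) x)
    (h : ∀ᶠ y in 𝓝 x, ∀ a, ∑ b, F.P a b y • A b y = A a y) (i j : Ix V) (a b : ι) :
    k2 F (cu I (cn F A) i j) a b x = mx (curv I F.e F.c A a b x) i j := by
  have h0 := h.self_of_nhds
  have e : ∀ a, k1 F (cn F A i j) a =ᶠ[𝓝 x] fun y => en i j (A a y) := fun a =>
    h.mono fun y hy => k1_cn F hy i j a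
  have h1 := k2_dM_fm1 F (α := fun a x => mx (A a x) i j) (fun a => sa_en (hs a) i j) a b
  change k2 F (dM I (cn F A i j)) a b x = F.D a (k1 F (cn F A i j) b) x
    - F.D b (k1 F (cn F A i j) a) x - ∑ k, F.c a b k x * k1 F (cn F A i j) k x at h1
  rw [Pre.D_def, Pre.D_def, dv_congr (e b), dv_congr (e a), dv_clm _ (hs b).md,
    dv_clm _ (hs a).md] at h1
  have h2 : k2 F ((cn F A * cn F A) i j) a b x = mx (A a x * A b x - A b x * A a x) i j := by
    rw [k2, Matrix.mul_apply, Finset.sum_apply, e2_sum, mx_sub, mx_mul, mx_mul, Matrix.sub_apply,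
      Matrix.mul_apply, Matrix.mul_apply, ← sum_sub_distrib]
    refine sum_congr rfl fun k _ => ?_
    rw [Pi.mul_apply, e2_mul F (cn_deg F A i k x), ← k1_cn F h0, ← k1_cn F h0, ← k1_cn F h0,
      ← k1_cn F h0]
    rfl
  have h3 : k2 F (cu I (cn F A) i j) a b x
      = k2 F (dM I (cn F A i j)) a b x + k2 F ((cn F A * cn F A) i j) a b x := e2_add _ _ _ _
  rw [h3, h1, h2, ← en_apply, ← en_apply, curv]
  simp only [map_sub, map_add, map_sum, map_smul, k1_cn F h0, en_apply, smul_eq_mul]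
  ring

/-- parallel maps are intertwiners -/
theorem itw_cn {U : Set M} {A : ι → M → V →L[ℝ] V} {A' : ι → M → W →L[ℝ] W} {u : M → V →L[ℝ] W}
    (hA : ∀ x ∈ U, ∀ a, ∑ b, F.P a b x • A b x = A a x)
    (hA' : ∀ x ∈ U, ∀ a, ∑ b, F.P a b x • A' b x = A' a x) (hu : ∀ x ∈ U, SA I u x)
    (h : ∀ x ∈ U, ∀ a, F.D a u x + A' a x ∘L u x - u x ∘L A a x = 0) :
    Itw I U (cn F A) (cn F A') (f0 E u) := by
  refine ⟨f0_ms hu, f0_ev U u, fun i j x hx => ?_⟩
  have d1 : md I (f0 E u) i j x = df I (fun y => en i j (u y)) x := dM_fn (sa_en (hu x hx) i j).md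
  have dg : IsDeg 1 ((md I (f0 E u) + cn F A' * f0 E u - f0 E u * cn F A) i j x) := by
    simp only [Matrix.sub_apply, Matrix.add_apply, Pi.sub_apply, Pi.add_apply, Matrix.mul_apply,
      Finset.sum_apply, Pi.mul_apply, d1, sub_eq_add_neg]
    refine ((isDeg_io _).add (IsDeg.sum _ fun k _ => ?_)).add ?_
    · exact T.isDeg_mul (cn_deg F A' i k x) (isDeg_alg _)
    · rw [← neg_one_smul ℝ]
      exact (IsDeg.sum _ fun k _ => T.isDeg_mul (isDeg_alg _) (cn_deg F A k j x)).smul _
  refine (cf F x).ext1' dg IsDeg.zero fun a => ?_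
  have e := congrArg (en i j) (h x hx a)
  rw [map_sub, map_add, map_zero, en_apply _ _ (_ ∘L _), en_apply _ _ (_ ∘L _), mx_comp, mx_comp,
    Pre.D_def, ← dv_clm _ (hu x hx).md] at e
  simp only [Matrix.sub_apply, Matrix.add_apply, Pi.sub_apply, Pi.add_apply, Matrix.mul_apply,
    Finset.sum_apply, Pi.mul_apply, d1, e1_sub, e1_add, e1_sum] at e ⊢
  rw [show e1 ((0 : Matrix (Ix W) (Ix V) (M → Ext E)) i j x) (ee F x a) = 0 from by simp [e1], ← e]
  congr 1
  · congr 1
    · exact e1_io _ _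
    · refine sum_congr rfl fun k _ => ?_
      rw [← k1_cn F (hA' x hx)]
      exact e1_mul_fn _ _ _
  · refine sum_congr rfl fun k _ => ?_
    rw [← k1_cn F (hA x hx)]
    exact e1_fn_mul _ _ _

theorem pa_cn {U : Set M} {A : ι → M → V →L[ℝ] V} {T : M → V →L[ℝ] V}
    (hA : ∀ x ∈ U, ∀ a, ∑ b, F.P a b x • A b x = A a x) (hT : ∀ x ∈ U, SA I T x)
    (h : ∀ x ∈ U, ∀ a, F.D a T x + (A a x * T x - T x * A a x) = 0) :
    Pa I U (cn F A) (f0 E T) :=
  itw_cn F hA hA hT fun x hx a => by rw [← h x hx a, add_sub_assoc]; rfl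

/-- components of the first form -/
theorem k2_c1 {A : ι → M → V →L[ℝ] V} {x : M} (hs : ∀ a, SA I (A a) x)
    (h : ∀ᶠ y in 𝓝 x, ∀ a, ∑ b, F.P a b y • A b y = A a y) (T : M → V →L[ℝ] V) (a b : ι) :
    k2 F (c1 I (cn F A) (f0 E T)) a b x = tr (T x * curv I F.e F.c A a b x) := by
  rw [tr_mx, mx_mul, k2, c1, trace, trace, Finset.sum_apply, e2_sum]
  refine sum_congr rfl fun i _ => ?_
  rw [diag_apply, diag_apply, Matrix.mul_apply, Matrix.mul_apply, Finset.sum_apply, e2_sum]
  refine sum_congr rfl fun j _ => ?_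
  rw [← k2_cu F hs h, Pi.mul_apply]
  change e2 (algebraMap ℝ (Ext E) _ * _) _ _ = _
  rw [← Algebra.smul_def, e2_smul]; rfl

theorem deg_c1 (A : ι → M → V →L[ℝ] V) (T : M → V →L[ℝ] V) (x : M) :
    IsDeg 2 (c1 I (cn F A) (f0 E T) x) := by
  rw [c1, trace, Finset.sum_apply]
  refine IsDeg.sum _ fun i _ => ?_
  rw [diag_apply, Matrix.mul_apply, Finset.sum_apply]
  exact IsDeg.sum _ fun j _ => R208.T.isDeg_mul (isDeg_alg _) (deg_cu F A j i x)

/-- the Chern-Weil density -/
def cwd (o : ι → ι → ι → ι → M → ℝ) (T : M → V →L[ℝ] V) (A : ι → M → V →L[ℝ] V) (x : M) : ℝ :=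
  ∑ a, ∑ b, ∑ c, ∑ d, o a b c d x * tr (T x * curv I F.e F.c A a b x * curv I F.e F.c A c d x)

/-- **the second form in components** -/
theorem rat_c2 (h4 : finrank ℝ E = 4) {o : ι → ι → ι → ι → M → ℝ} {x : M}
    (ho : Vo (fun a b => F.P a b x) fun a b c d => o a b c d x) {A : ι → M → V →L[ℝ] V}
    (hs : ∀ a, SA I (A a) x) (h : ∀ᶠ y in 𝓝 x, ∀ a, ∑ b, F.P a b y • A b y = A a y)
    (T : M → V →L[ℝ] V) : rat (vol F o) (c2 I (cn F A) (f0 E T)) x = 1 / 4 * cwd F o T A x := by
  have e : c2 I (cn F A) (f0 E T) = ∑ i, ∑ j, ∑ k,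
      (fun y => mx (T y) i j) • (cu I (cn F A) j k * cu I (cn F A) k i) := by
    rw [c2, trace]
    refine sum_congr rfl fun i _ => ?_
    rw [diag_apply, Matrix.mul_apply]
    refine sum_congr rfl fun j _ => ?_
    rw [Matrix.mul_apply, mul_sum]
    exact sum_congr rfl fun k _ => fn_mul _ _
  rw [e]
  simp only [rat_sum, Finset.sum_apply, rat_fsmul, Pi.mul_apply,
    rat_vol_mul F h4 ho (deg_cu F A _ _ x), k2_cu F hs h, cwd, tr_mx, mx_mul, trace, diag_apply,
    Matrix.mul_apply, mul_sum, sum_mul]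
  simp only [← Fintype.sum_prod_type']
  refine Fintype.sum_equiv
    ⟨fun p => (p.2.2.2.1, p.2.2.2.2.1, p.2.2.2.2.2.1, p.2.2.2.2.2.2, p.1, p.2.2.1, p.2.1),
     fun p => (p.2.2.2.2.1, p.2.2.2.2.2.2, p.2.2.2.2.2.1, p.1, p.2.1, p.2.2.1, p.2.2.2.1),
     fun _ => rfl, fun _ => rfl⟩ _ _ fun p => ?_
  simp only [Equiv.coe_fn_mk]
  ring

/-! ### integrals -/

section int
variable {o : ι → ι → ι → ι → M → ℝ}

theorem unitV_vol (h4 : finrank ℝ E = 4)
    (ho : ∀ x, Vo (fun a b => F.P a b x) fun a b c d => o a b c d x) : UnitV F.e (vol F o) :=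
  unitV_of_oc h4 fun x => by
    rw [← (ho x).nm]
    refine sum_congr rfl fun a _ => sum_congr rfl fun b _ => sum_congr rfl fun c _ =>
      sum_congr rfl fun d _ => ?_
    rw [oc_apply, ← e4_vol F (ho x) a b c d]; rfl

theorem oc_vol (ho : ∀ x, Vo (fun a b => F.P a b x) fun a b c d => o a b c d x) :
    oc F.e (vol F o) = o := by
  funext a b c d x
  rw [oc_apply, ← e4_vol F (ho x) a b c d]; rfl

theorem vo_oc (h4 : finrank ℝ E = 4) {v : M → Ext E} (hv : UnitV F.e v) (x : M) :
    Vo (fun a b => F.P a b x) fun a b c d => oc F.e v a b c d x :=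
  ⟨fun a b c d => oc_12 b a c d x, fun a b c d => oc_23 a c b d x, fun a b c d => oc_34 a b d c x,
    fun a b c d => oc_P a b c d x, hv.oc_nm x h4⟩

theorem tp_vol_oc (h4 : finrank ℝ E = 4) {v : M → Ext E} (hv : UnitV F.e v) (x : M) :
    rat (vol F (oc F.e v)) v x = 1 := by
  rw [rat_vol F h4 (vo_oc F h4 hv x), ph]
  have := hv.oc_nm x h4
  simp only [sq] at this
  simp only [show ∀ a b c d, e4 (v x) (ee F x a) (ee F x b) (ee F x c) (ee F x d)
    = oc F.e v a b c d x from fun a b c d => (oc_apply a b c d x).symm, this]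
  norm_num

theorem sameOn_vol_oc (h4 : finrank ℝ E = 4) {v : M → Ext E} (hv : UnitV F.e v) :
    SameOn (vol F (oc F.e v)) v Set.univ :=
  sameOn_of_rat_pos fun x _ => by rw [tp_vol_oc F h4 hv]; exact one_pos

/-- the integral of the density over a set is the integral of the form -/
theorem setIntegral_cwd (h4 : finrank ℝ E = 4) (hF : F.IsVol)
    (ho : ∀ x, Vo (fun a b => F.P a b x) fun a b c d => o a b c d x) {A : ι → M → V →L[ℝ] V}
    (hA : Wz78.Con I F.P A) (T : M → V →L[ℝ] V) (s : Set M) :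
    ∫ x in s, cwd F o T A x ∂F.μ = 4 * integOn I (vol F o) (c2 I (cn F A) (f0 E T)) s := by
  rw [(unitV_vol F h4 ho).integOn_eq hF, ← MeasureTheory.integral_const_mul]
  congr 1
  funext x
  rw [rat_c2 F h4 (ho x) (fun a => hA.sm a x) (.of_forall fun y a => hA.proj a y)]; ring

/-- **the integral of the density is the characteristic number** -/
theorem integral_cwd [T2Space M] [CompactSpace M] (h4 : finrank ℝ E = 4) (hF : F.IsVol)
    (hs : ∀ a b c d, An.Sm I (o a b c d))
    (ho : ∀ x, Vo (fun a b => F.P a b x) fun a b c d => o a b c d x) {A : ι → M → V →L[ℝ] V}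
    (hA : Wz78.Con I F.P A) {T : M → V →L[ℝ] V} (hT : An.Sm I T)
    (hp : ∀ a x, F.D a T x + (A a x * T x - T x * A a x) = 0) :
    ∫ x, cwd F o T A x ∂F.μ = 4 * cw I (vol F o) (f0 E T) := by
  rw [cw_eq (ori_vol F h4 hs ho) (cn_co F fun a x _ => hA.sm a x)
    (pa_cn F (fun x _ a => hA.proj a x) (fun x _ => hT x) fun x _ a => hp a x), ← integOn_univ,
    ← setIntegral_cwd F h4 hF ho hA, MeasureTheory.Measure.restrict_univ]

end int

end Crest.Agent.X212.Num57
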