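import Crest.Agent.X212.Hp13.Dnp
import Crest.Agent.X212.Pte3.Part
import Crest.Agent.X212.Kl48.Main
import Crest.Agent.X212.Fex7.Main
import Crest.Agent.X212.Dgr80.Eb0
import Crest.Agent.X212.Dgr80.Eb1
import Crest.Agent.X212.Dgr80.Eb2
import Crest.Agent.X212.Dgr80.Eb
import Crest.Agent.X212.Pat85.Iso
import Crest.Agent.X212.Num57.FrxG
import Crest.Agent.X212.Num57.Frx
import Crest.Agent.X212.Num57.FrxC
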