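import Mathlib
import Crest.Agent.X212.Dr59.Defs

-- ▼ part X212/Num57/Alg
section

/-!
X212 / NUM (helper57), part 1: Chern-Weil algebra in a traced super differential algebra.

* `SD A`     : an algebra with an involution `inv` and a super-derivation `d`, `d d = 0`;
* `TD A B`   : a trace `τ : A → B` commuting with `d`, super-cyclic;
* `cur A`    : the curvature `dA + A A`;  `cov A x` : the covariant derivative `dx + A x - inv x A`;
* `Par A T`  : `T` even and `cov A T = 0`;
* `c1_closed`, `c1_sub`, `c2_closed`, `c2_sub` : closedness and transgression;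
-/

set_option autoImplicit false

namespace Crest.Agent.X212.Num57

/-- super differential algebra (not necessarily commutative) -/
structure SD (A : Type*) [Ring A] [Algebra ℝ A] where
  inv : A →ₐ[ℝ] A
  d : A →ₗ[ℝ] A
  inv_inv : ∀ x, inv (inv x) = x
  inv_d : ∀ x, inv (d x) = - d (inv x)
  d_mul : ∀ x y, d (x * y) = d x * y + inv x * d y
  d_d : ∀ x, d (d x) = 0

namespace SD

variable {A : Type*} [Ring A] [Algebra ℝ A] (S : SD A)

/-- even -/
def Ev (x : A) : Prop := S.inv x = x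
/-- odd -/
def Od (x : A) : Prop := S.inv x = -x

variable {S}

theorem d_one : S.d 1 = 0 := by
  have h := S.d_mul 1 1
  rw [mul_one, mul_one, map_one S.inv, one_mul] at h
  exact left_eq_add.1 h

theorem Ev.one : S.Ev 1 := map_one _
theorem Ev.zero : S.Ev 0 := map_zero _
theorem Od.zero : S.Od 0 := by simp [Od]
theorem Ev.add {x y : A} (hx : S.Ev x) (hy : S.Ev y) : S.Ev (x + y) := by
  unfold Ev at *; rw [map_add, hx, hy]
theorem Ev.sub {x y : A} (hx : S.Ev x) (hy : S.Ev y) : S.Ev (x - y) := by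
  unfold Ev at *; rw [map_sub, hx, hy]
theorem Ev.neg {x : A} (hx : S.Ev x) : S.Ev (-x) := by
  unfold Ev at *; rw [map_neg, hx]
theorem Ev.smul {x : A} (r : ℝ) (hx : S.Ev x) : S.Ev (r • x) := by
  unfold Ev at *; rw [map_smul, hx]
theorem Od.add {x y : A} (hx : S.Od x) (hy : S.Od y) : S.Od (x + y) := by
  unfold Od at *; rw [map_add, hx, hy, neg_add]
theorem Od.sub {x y : A} (hx : S.Od x) (hy : S.Od y) : S.Od (x - y) := by
  unfold Od at *; rw [map_sub, hx, hy]; abel
theorem Od.neg {x : A} (hx : S.Od x) : S.Od (-x) := by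
  unfold Od at *; rw [map_neg, hx]
theorem Od.smul {x : A} (r : ℝ) (hx : S.Od x) : S.Od (r • x) := by
  unfold Od at *; rw [map_smul, hx, smul_neg]
theorem Ev.mul {x y : A} (hx : S.Ev x) (hy : S.Ev y) : S.Ev (x * y) := by
  unfold Ev at *; rw [map_mul, hx, hy]
theorem Ev.mul_od {x y : A} (hx : S.Ev x) (hy : S.Od y) : S.Od (x * y) := by
  unfold Ev Od at *; rw [map_mul, hx, hy, mul_neg]
theorem Od.mul_ev {x y : A} (hx : S.Od x) (hy : S.Ev y) : S.Od (x * y) := by
  unfold Ev Od at *; rw [map_mul, hx, hy, neg_mul]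
theorem Od.mul {x y : A} (hx : S.Od x) (hy : S.Od y) : S.Ev (x * y) := by
  unfold Ev Od at *; rw [map_mul, hx, hy, neg_mul_neg]
theorem Ev.d {x : A} (hx : S.Ev x) : S.Od (S.d x) := by
  unfold Ev Od at *; rw [S.inv_d, hx]
theorem Od.d {x : A} (hx : S.Od x) : S.Ev (S.d x) := by
  unfold Ev Od at *; rw [S.inv_d, hx, map_neg, neg_neg]
theorem Ev.sum {ι : Type*} (s : Finset ι) {x : ι → A} (h : ∀ i ∈ s, S.Ev (x i)) :
    S.Ev (∑ i ∈ s, x i) := by
  unfold Ev at *; rw [map_sum]; exact Finset.sum_congr rfl h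
theorem Od.sum {ι : Type*} (s : Finset ι) {x : ι → A} (h : ∀ i ∈ s, S.Od (x i)) :
    S.Od (∑ i ∈ s, x i) := by
  unfold Od at *; rw [map_sum, ← Finset.sum_neg_distrib]; exact Finset.sum_congr rfl h

theorem Ev.d_mul {x : A} (hx : S.Ev x) (y : A) : S.d (x * y) = S.d x * y + x * S.d y := by
  rw [S.d_mul, hx]
theorem Od.d_mul {x : A} (hx : S.Od x) (y : A) : S.d (x * y) = S.d x * y - x * S.d y := by
  rw [S.d_mul, hx, neg_mul, sub_eq_add_neg]

variable (S)

/-- curvature -/
def cur (C : A) : A := S.d C + C * C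

/-- covariant derivative on endomorphism valued forms -/
def cov (C x : A) : A := S.d x + C * x - S.inv x * C

/-- `T` is even and parallel -/
structure Par (C T : A) : Prop where
  ev : S.Ev T
  par : S.d T + C * T - T * C = 0

variable {S}

theorem Od.cur {C : A} (hC : S.Od C) : S.Ev (S.cur C) := hC.d.add (hC.mul hC)

theorem Ev.cov_eq {x : A} (hx : S.Ev x) (C : A) : S.cov C x = S.d x + C * x - x * C := by
  rw [SD.cov, hx]
theorem Od.cov_eq {x : A} (hx : S.Od x) (C : A) : S.cov C x = S.d x + C * x + x * C := by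
  rw [SD.cov, hx, neg_mul, sub_neg_eq_add]

theorem Par.cov {C T : A} (h : S.Par C T) : S.cov C T = 0 := by rw [h.ev.cov_eq, h.par]

theorem Par.of_cov {C T : A} (he : S.Ev T) (h : S.cov C T = 0) : S.Par C T :=
  ⟨he, by rw [← he.cov_eq, h]⟩

theorem cov_add (C x y : A) : S.cov C (x + y) = S.cov C x + S.cov C y := by
  simp only [cov, map_add, mul_add, add_mul]; abel
theorem cov_sub (C x y : A) : S.cov C (x - y) = S.cov C x - S.cov C y := by
  simp only [cov, map_sub, mul_sub, sub_mul]; abel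
theorem cov_smul (C : A) (r : ℝ) (x : A) : S.cov C (r • x) = r • S.cov C x := by
  simp only [cov, map_smul, mul_smul_comm, smul_mul_assoc, smul_add, smul_sub]
theorem cov_one (C : A) : S.cov C 1 = 0 := by simp [cov, d_one]

theorem cov_mul (C x y : A) : S.cov C (x * y) = S.cov C x * y + S.inv x * S.cov C y := by
  simp only [cov, S.d_mul, map_mul]; noncomm_ring

theorem Ev.cov {C x : A} (hC : S.Od C) (hx : S.Ev x) : S.Od (S.cov C x) := by
  rw [hx.cov_eq]; exact (hx.d.add (hC.mul_ev hx)).sub (hx.mul_od hC)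
theorem Od.cov {C x : A} (hC : S.Od C) (hx : S.Od x) : S.Ev (S.cov C x) := by
  rw [hx.cov_eq]; exact (hx.d.add (hC.mul hx)).add (hx.mul hC)

theorem Ev.cov_mul {x : A} (hx : S.Ev x) (C y : A) :
    S.cov C (x * y) = S.cov C x * y + x * S.cov C y := by rw [SD.cov_mul, hx]
theorem Od.cov_mul {x : A} (hx : S.Od x) (C y : A) :
    S.cov C (x * y) = S.cov C x * y - x * S.cov C y := by
  rw [SD.cov_mul, hx, neg_mul, sub_eq_add_neg]

theorem Par.one (C : A) : S.Par C 1 := ⟨Ev.one, by simp [d_one]⟩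
theorem Par.zero (C : A) : S.Par C 0 := ⟨Ev.zero, by simp⟩
theorem Par.mul {C T U : A} (hT : S.Par C T) (hU : S.Par C U) : S.Par C (T * U) :=
  Par.of_cov (hT.ev.mul hU.ev) (by rw [hT.ev.cov_mul, hT.cov, hU.cov]; simp)
theorem Par.add {C T U : A} (hT : S.Par C T) (hU : S.Par C U) : S.Par C (T + U) :=
  Par.of_cov (hT.ev.add hU.ev) (by rw [cov_add, hT.cov, hU.cov]; simp)
theorem Par.sub {C T U : A} (hT : S.Par C T) (hU : S.Par C U) : S.Par C (T - U) :=
  Par.of_cov (hT.ev.sub hU.ev) (by rw [cov_sub, hT.cov, hU.cov]; simp)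
theorem Par.smul {C T : A} (r : ℝ) (hT : S.Par C T) : S.Par C (r • T) :=
  Par.of_cov (hT.ev.smul r) (by rw [cov_smul, hT.cov]; simp)

/-- Bianchi -/
theorem cov_cur {C : A} (hC : S.Od C) : S.cov C (S.cur C) = 0 := by
  rw [hC.cur.cov_eq, cur, map_add, S.d_d, hC.d_mul]; noncomm_ring

theorem Od.cov_cov {C x : A} (hC : S.Od C) (hx : S.Od x) :
    S.cov C (S.cov C x) = S.cur C * x - x * S.cur C := by
  rw [(hC.cov hx).cov_eq, hx.cov_eq, map_add, map_add, S.d_d, hC.d_mul, hx.d_mul, SD.cur]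
  noncomm_ring

theorem Ev.cov_cov {C x : A} (hC : S.Od C) (hx : S.Ev x) :
    S.cov C (S.cov C x) = S.cur C * x - x * S.cur C := by
  rw [(Ev.cov hC hx).cov_eq, hx.cov_eq, map_sub, map_add, S.d_d, hC.d_mul, hx.d_mul, SD.cur]
  noncomm_ring

theorem Par.comm_cur {C T : A} (hC : S.Od C) (h : S.Par C T) : T * S.cur C = S.cur C * T := by
  have h1 := Ev.cov_cov hC h.ev
  rw [h.cov] at h1
  have h2 : S.cov C 0 = 0 := by simp [SD.cov]
  rw [h2] at h1
  exact (sub_eq_zero.1 h1.symm).symm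

theorem cur_add {C a : A} (ha : S.Od a) : S.cur (C + a) = S.cur C + S.cov C a + a * a := by
  rw [ha.cov_eq, cur, cur, map_add]; noncomm_ring

theorem Par.comm_sub {C C' T : A} (h : S.Par C T) (h' : S.Par C' T) :
    T * (C' - C) = (C' - C) * T := by
  have h1 := h.par
  have h2 := h'.par
  have : T * (C' - C) - (C' - C) * T
      = (S.d T + C * T - T * C) - (S.d T + C' * T - T * C') := by noncomm_ring
  rw [h1, h2, sub_zero] at this
  exact sub_eq_zero.1 this

theorem Par.add_conn {C a T : A} (h : S.Par C T) (ha : T * a = a * T) : S.Par (C + a) T :=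
  ⟨h.ev, by
    have : S.d T + (C + a) * T - T * (C + a) = (S.d T + C * T - T * C) + (a * T - T * a) := by
      noncomm_ring
    rw [this, h.par, ha]; simp⟩

theorem Par.comm_cov {C a T : A} (h : S.Par C T) (hT : T * a = a * T) (ha : S.Od a) :
    T * S.cov C a = S.cov C a * T := by
  have h1 := congrArg (S.cov C) hT
  rw [h.ev.cov_mul, ha.cov_mul, h.cov] at h1
  simpa using h1

/-- the Grassmann connection of an idempotent -/
def gr (S : SD A) (p : A) : A := p * S.d p - S.d p * p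

theorem d_idem {p : A} (he : S.Ev p) (hp : p * p = p) : S.d p * p + p * S.d p = S.d p := by
  rw [← he.d_mul, hp]

theorem gr_od {p : A} (he : S.Ev p) : S.Od (S.gr p) := (he.mul_od he.d).sub (he.d.mul_ev he)

theorem gr_par {p : A} (he : S.Ev p) (hp : p * p = p) : S.Par (S.gr p) p := by
  refine ⟨he, ?_⟩
  have h := d_idem he hp
  have : S.d p + S.gr p * p - p * S.gr p
      = S.d p + p * S.d p * p - S.d p * (p * p) - (p * p) * S.d p + p * S.d p * p := by
    rw [gr]; noncomm_ring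
  rw [this, hp]
  have h2 : p * S.d p * p = 0 := by
    have h3 : p * (S.d p * p + p * S.d p) = p * S.d p := by rw [h]
    have h4 : p * (S.d p * p + p * S.d p) = p * S.d p * p + (p * p) * S.d p := by noncomm_ring
    rw [h4, hp] at h3
    exact add_eq_right.1 h3
  rw [h2]
  nth_rewrite 1 [← h]
  abel

end SD

/-- a super-cyclic trace commuting with `d` -/
structure TD (A B : Type*) [Ring A] [Algebra ℝ A] [AddCommGroup B] [Module ℝ B] extends SD A where
  τ : A →ₗ[ℝ] B
  δ : B →ₗ[ℝ] B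
  τ_d : ∀ x, τ (d x) = δ (τ x)
  τ_ev : ∀ x y, inv x = x → τ (x * y) = τ (y * x)
  τ_od : ∀ x y, inv x = -x → inv y = -y → τ (x * y) = - τ (y * x)

namespace TD

variable {A B : Type*} [Ring A] [Algebra ℝ A] [AddCommGroup B] [Module ℝ B] (S : TD A B)

theorem eq_zero_of_neg {b : B} (h : b = -b) : b = 0 := by
  have h1 : (2 : ℝ) • b = 0 := by rw [two_smul]; nth_rewrite 2 [h]; simp
  simpa using h1

theorem τ_cov_ev {C x : A} (hx : S.Ev x) : S.τ (S.cov C x) = S.δ (S.τ x) := by
  rw [hx.cov_eq, map_sub, map_add, S.τ_d, S.τ_ev x C hx]; abel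

theorem τ_cov_od {C x : A} (hC : S.Od C) (hx : S.Od x) : S.τ (S.cov C x) = S.δ (S.τ x) := by
  rw [hx.cov_eq, map_add, map_add, S.τ_d, S.τ_od x C hx hC]; abel

/-- `τ (T F)` is closed -/
theorem c1_closed {C T : A} (hC : S.Od C) (h : S.Par C T) : S.δ (S.τ (T * S.cur C)) = 0 := by
  rw [← S.τ_cov_ev (C := C) (h.ev.mul hC.cur), h.ev.cov_mul, h.cov, SD.cov_cur hC]; simp

/-- `τ (T F F)` is closed -/
theorem c2_closed {C T : A} (hC : S.Od C) (h : S.Par C T) :
    S.δ (S.τ (T * (S.cur C * S.cur C))) = 0 := by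
  rw [← S.τ_cov_ev (C := C) (h.ev.mul (hC.cur.mul hC.cur)), h.ev.cov_mul, h.cov, hC.cur.cov_mul,
    SD.cov_cur hC]; simp

theorem τ_sq {T a : A} (hT : S.Ev T) (ha : S.Od a) (hc : T * a = a * T) :
    S.τ (T * (a * a)) = 0 := by
  apply eq_zero_of_neg
  have := S.τ_od (T * a) a (hT.mul_od ha) ha
  rw [mul_assoc, ← mul_assoc a T a, ← hc, mul_assoc] at this
  exact this

/-- transgression of the first form -/
theorem c1_add {C a T : A} (hC : S.Od C) (ha : S.Od a) (h : S.Par C T) (hc : T * a = a * T) :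
    S.τ (T * S.cur (C + a)) = S.τ (T * S.cur C) + S.δ (S.τ (T * a)) := by
  rw [SD.cur_add ha, mul_add, mul_add, map_add, map_add, S.τ_sq h.ev ha hc, add_zero,
    ← S.τ_cov_od hC (h.ev.mul_od ha), h.ev.cov_mul, h.cov]
  simp

/-- the Chern-Simons transgression form -/
noncomputable def cs (S : SD A) (C a : A) : A :=
  (2 : ℝ) • (a * S.cur C) + a * S.cov C a + (2 / 3 : ℝ) • (a * a * a)

theorem cs_od {C a : A} (hC : S.Od C) (ha : S.Od a) : S.Od (cs S.toSD C a) :=
  (((ha.mul_ev hC.cur).smul _).add (ha.mul_ev (hC.cov ha))).add (((ha.mul ha).mul_od ha).smul _)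

/-- transgression of the second form -/
theorem c2_add {C a T : A} (hC : S.Od C) (ha : S.Od a) (h : S.Par C T) (hc : T * a = a * T) :
    S.τ (T * (S.cur (C + a) * S.cur (C + a)))
      = S.τ (T * (S.cur C * S.cur C)) + S.δ (S.τ (T * cs S.toSD C a)) := by
  have hF := hC.cur
  have hD := hC.cov ha
  have hT := h.ev
  have cF := h.comm_cur hC
  have cD := h.comm_cov hc ha
  rw [← S.τ_cov_od hC (hT.mul_od (S.cs_od hC ha)), hT.cov_mul, h.cov, zero_mul, zero_add, cs,
    SD.cov_add, SD.cov_add, SD.cov_smul, SD.cov_smul, ha.cov_mul, ha.cov_mul, (ha.mul ha).cov_mul,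
    ha.cov_mul, SD.cov_cur hC, hC.cov_cov ha, SD.cur_add ha]
  generalize S.cur C = F at *
  generalize S.cov C a = D at *
  have e1 : S.τ (T * (F * D)) = S.τ (T * (D * F)) := by
    rw [← mul_assoc, ← S.τ_ev D (T * F) hD, ← mul_assoc, ← cD, mul_assoc]
  have e2 : S.τ (T * (F * (a * a))) = S.τ (T * (a * a * F)) := by
    rw [← mul_assoc, ← S.τ_ev (a * a) (T * F) (ha.mul ha), ← mul_assoc, mul_assoc a a T, ← hc,
      ← mul_assoc a T a, ← hc]
    simp only [mul_assoc]
  have e3 : S.τ (T * (D * (a * a))) = S.τ (T * (a * a * D)) := by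
    rw [← mul_assoc, ← S.τ_ev (a * a) (T * D) (ha.mul ha), ← mul_assoc, mul_assoc a a T, ← hc,
      ← mul_assoc a T a, ← hc]
    simp only [mul_assoc]
  have e4 : S.τ (T * (a * F * a)) = - S.τ (T * (a * a * F)) := by
    rw [← mul_assoc, S.τ_od (T * (a * F)) a (hT.mul_od (ha.mul_ev hF)) ha, ← mul_assoc a T, ← hc]
    simp only [mul_assoc]
  have e5 : S.τ (T * (a * D * a)) = - S.τ (T * (a * a * D)) := by
    rw [← mul_assoc, S.τ_od (T * (a * D)) a (hT.mul_od (ha.mul_ev hD)) ha, ← mul_assoc a T, ← hc]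
    simp only [mul_assoc]
  have e6 : S.τ (T * (a * a * (a * a))) = 0 := by
    apply eq_zero_of_neg
    have := S.τ_od (T * (a * a * a)) a (hT.mul_od ((ha.mul ha).mul_od ha)) ha
    rw [← mul_assoc a T, ← hc] at this
    simpa only [mul_assoc] using this
  have l1 : T * ((F + D + a * a) * (F + D + a * a))
      = T * (F * F) + T * (F * D) + T * (F * (a * a)) + T * (D * F) + T * (D * D)
        + T * (D * (a * a)) + T * (a * a * F) + T * (a * a * D) + T * (a * a * (a * a)) := by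
    noncomm_ring
  have l2 : T * ((2 : ℝ) • (D * F - a * 0) + (D * D - a * (F * a - a * F))
        + (2 / 3 : ℝ) • ((D * a - a * D) * a + a * a * D))
      = (2 : ℝ) • (T * (D * F)) + (T * (D * D) - T * (a * F * a) + T * (a * a * F))
        + (2 / 3 : ℝ) • (T * (D * (a * a)) - T * (a * D * a) + T * (a * a * D)) := by
    simp only [mul_add, mul_smul_comm, mul_zero, sub_zero]
    congr 1
    · congr 1
      noncomm_ring
    · congr 1
      noncomm_ring
  rw [l1, l2]
  simp only [map_add, map_sub, map_smul, e1, e2, e3, e4, e5, e6]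
  module

theorem c1_sub {C C' T : A} (hC : S.Od C) (hC' : S.Od C') (h : S.Par C T) (h' : S.Par C' T) :
    S.τ (T * S.cur C') = S.τ (T * S.cur C) + S.δ (S.τ (T * (C' - C))) := by
  rw [← S.c1_add hC (hC'.sub hC) h (h.comm_sub h'), add_sub_cancel]

theorem c2_sub {C C' T : A} (hC : S.Od C) (hC' : S.Od C') (h : S.Par C T) (h' : S.Par C' T) :
    S.τ (T * (S.cur C' * S.cur C'))
      = S.τ (T * (S.cur C * S.cur C)) + S.δ (S.τ (T * cs S.toSD C (C' - C))) := by
  rw [← S.c2_add hC (hC'.sub hC) h (h.comm_sub h'), add_sub_cancel]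

end TD

end Crest.Agent.X212.Num57
end

-- ▼ part X212/Num57/Mat
section

/-!
X212 / NUM (helper57), part 2: matrices over a super-commutative differential algebra.

* `SC Ω`      : super-commutative `SD`;
* `S.mat κ`   : the traced algebra of square matrices (`τ = trace`);
* `Itw C C' u`: the rectangular even matrix `u` intertwines `d + C` and `d + C'`;
* `tpt`       : transport of a connection along `v u = p`, `u v = q`; `Itw.tr1`, `Itw.tr2` the traces;
* `c1_map`, `c2_map` : naturality.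
-/

set_option autoImplicit false
set_option linter.unusedSectionVars false

open Matrix

namespace Crest.Agent.X212.Num57

/-- super-commutative differential algebra -/
structure SC (Ω : Type*) [Ring Ω] [Algebra ℝ Ω] extends SD Ω where
  comm_ev : ∀ x y, inv x = x → x * y = y * x
  comm_od : ∀ x y, inv x = -x → inv y = -y → x * y = -(y * x)

namespace SC

variable {Ω : Type*} [Ring Ω] [Algebra ℝ Ω] (S : SC Ω)
variable {κ κ' κ'' : Type*} [Fintype κ] [Fintype κ'] [Fintype κ''] [DecidableEq κ] [DecidableEq κ']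
  [DecidableEq κ'']

/-- entrywise `d` -/
def md {m n : Type*} (X : Matrix m n Ω) : Matrix m n Ω := X.map S.d
/-- entrywise involution -/
def mi {m n : Type*} (X : Matrix m n Ω) : Matrix m n Ω := X.map S.inv

@[simp] theorem md_apply {m n : Type*} (X : Matrix m n Ω) (i : m) (j : n) :
    S.md X i j = S.d (X i j) := rfl
@[simp] theorem mi_apply {m n : Type*} (X : Matrix m n Ω) (i : m) (j : n) :
    S.mi X i j = S.inv (X i j) := rfl

theorem md_mul {m n : Type*} (X : Matrix m κ Ω) (Y : Matrix κ n Ω) :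
    S.md (X * Y) = S.md X * Y + S.mi X * S.md Y := by
  ext i j
  simp only [md_apply, Matrix.mul_apply, map_sum, S.d_mul, Matrix.add_apply, mi_apply,
    Finset.sum_add_distrib]

theorem mi_mul {m n : Type*} (X : Matrix m κ Ω) (Y : Matrix κ n Ω) :
    S.mi (X * Y) = S.mi X * S.mi Y := by
  ext i j
  simp only [mi_apply, Matrix.mul_apply, map_sum, map_mul]

theorem md_add {m n : Type*} (X Y : Matrix m n Ω) : S.md (X + Y) = S.md X + S.md Y := by
  ext i j; simp
theorem md_sub {m n : Type*} (X Y : Matrix m n Ω) : S.md (X - Y) = S.md X - S.md Y := by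
  ext i j; simp
theorem mi_add {m n : Type*} (X Y : Matrix m n Ω) : S.mi (X + Y) = S.mi X + S.mi Y := by
  ext i j; simp
theorem mi_sub {m n : Type*} (X Y : Matrix m n Ω) : S.mi (X - Y) = S.mi X - S.mi Y := by
  ext i j; simp
theorem md_md {m n : Type*} (X : Matrix m n Ω) : S.md (S.md X) = 0 := by
  ext i j; simp [S.d_d]
theorem mi_md {m n : Type*} (X : Matrix m n Ω) : S.mi (S.md X) = - S.md (S.mi X) := by
  ext i j; simp [S.inv_d]
theorem md_neg {m n : Type*} (X : Matrix m n Ω) : S.md (-X) = - S.md X := by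
  ext i j; simp
theorem md_zero {m n : Type*} : S.md (0 : Matrix m n Ω) = 0 := by
  ext i j; simp
theorem mi_zero {m n : Type*} : S.mi (0 : Matrix m n Ω) = 0 := by
  ext i j; simp
theorem md_one : S.md (1 : Matrix κ κ Ω) = 0 := by
  ext i j
  by_cases h : i = j
  · subst h; simp [SD.d_one]
  · simp [Matrix.one_apply_ne h]
theorem mi_one : S.mi (1 : Matrix κ κ Ω) = 1 := by
  ext i j
  by_cases h : i = j
  · subst h; simp
  · simp [Matrix.one_apply_ne h]

theorem trace_ev (X : Matrix κ κ' Ω) (Y : Matrix κ' κ Ω) (h : S.mi X = X) :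
    trace (X * Y) = trace (Y * X) := by
  simp only [trace, diag, Matrix.mul_apply]
  rw [Finset.sum_comm]
  refine Finset.sum_congr rfl fun i _ => Finset.sum_congr rfl fun j _ => ?_
  exact S.comm_ev _ _ (congrFun (congrFun h j) i)

theorem trace_od (X : Matrix κ κ' Ω) (Y : Matrix κ' κ Ω) (h : S.mi X = -X) (h' : S.mi Y = -Y) :
    trace (X * Y) = - trace (Y * X) := by
  simp only [trace, diag, Matrix.mul_apply]
  rw [Finset.sum_comm, ← Finset.sum_neg_distrib]
  refine Finset.sum_congr rfl fun i _ => ?_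
  rw [← Finset.sum_neg_distrib]
  refine Finset.sum_congr rfl fun j _ => ?_
  exact S.comm_od _ _ (congrFun (congrFun h j) i) (congrFun (congrFun h' i) j)

variable (κ) in
/-- the traced algebra of square matrices -/
def mat : TD (Matrix κ κ Ω) Ω where
  inv := S.inv.mapMatrix
  d := S.d.mapMatrix
  inv_inv x := by ext i j; simp [S.inv_inv]
  inv_d x := S.mi_md x
  d_mul x y := S.md_mul x y
  d_d x := S.md_md x
  τ := traceLinearMap κ ℝ Ω
  δ := S.d
  τ_d x := by simp [trace, map_sum]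
  τ_ev x y h := S.trace_ev x y h
  τ_od x y h h' := S.trace_od x y h h'

theorem mat_d (X : Matrix κ κ Ω) : (S.mat κ).d X = S.md X := rfl
theorem mat_inv (X : Matrix κ κ Ω) : (S.mat κ).inv X = S.mi X := rfl
theorem mat_τ (X : Matrix κ κ Ω) : (S.mat κ).τ X = trace X := rfl
theorem mat_δ (x : Ω) : (S.mat κ).δ x = S.d x := rfl

/-- curvature matrix -/
abbrev cu (C : Matrix κ κ Ω) : Matrix κ κ Ω := (S.mat κ).cur C
/-- odd matrix (a connection) -/
abbrev Co (C : Matrix κ κ Ω) : Prop := (S.mat κ).Od C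
/-- parallel endomorphism -/
abbrev Pa (C T : Matrix κ κ Ω) : Prop := (S.mat κ).Par C T

theorem cu_eq (C : Matrix κ κ Ω) : S.cu C = S.md C + C * C := rfl
theorem co_iff {C : Matrix κ κ Ω} : S.Co C ↔ ∀ i j, S.Od (C i j) := by
  constructor
  · intro h i j; exact congrFun (congrFun h i) j
  · intro h; ext i j; exact h i j
theorem ev_iff {m n : Type*} {X : Matrix m n Ω} : S.mi X = X ↔ ∀ i j, S.Ev (X i j) := by
  constructor
  · intro h i j; exact congrFun (congrFun h i) j
  · intro h; ext i j; exact h i j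
theorem pa_iff {C T : Matrix κ κ Ω} :
    S.Pa C T ↔ S.mi T = T ∧ S.md T + C * T - T * C = 0 :=
  ⟨fun h => ⟨h.ev, h.par⟩, fun h => ⟨h.1, h.2⟩⟩

/-- first characteristic form -/
def c1 (C T : Matrix κ κ Ω) : Ω := trace (T * S.cu C)
/-- second characteristic form -/
def c2 (C T : Matrix κ κ Ω) : Ω := trace (T * (S.cu C * S.cu C))

variable {S}

theorem c1_closed {C T : Matrix κ κ Ω} (hC : S.Co C) (h : S.Pa C T) : S.d (S.c1 C T) = 0 :=
  (S.mat κ).c1_closed hC h
theorem c2_closed {C T : Matrix κ κ Ω} (hC : S.Co C) (h : S.Pa C T) : S.d (S.c2 C T) = 0 :=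
  (S.mat κ).c2_closed hC h
theorem c1_sub {C C' T : Matrix κ κ Ω} (hC : S.Co C) (hC' : S.Co C') (h : S.Pa C T)
    (h' : S.Pa C' T) : S.c1 C' T = S.c1 C T + S.d (trace (T * (C' - C))) :=
  (S.mat κ).c1_sub hC hC' h h'
theorem c2_sub {C C' T : Matrix κ κ Ω} (hC : S.Co C) (hC' : S.Co C') (h : S.Pa C T)
    (h' : S.Pa C' T) :
    S.c2 C' T = S.c2 C T + S.d (trace (T * TD.cs (S.mat κ).toSD C (C' - C))) :=
  (S.mat κ).c2_sub hC hC' h h'

theorem ev_trace {X : Matrix κ κ Ω} (h : S.mi X = X) : S.Ev (trace X) := by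
  unfold trace
  exact SD.Ev.sum _ fun i _ => (S.ev_iff.1 h) i i

theorem c1_ev {C T : Matrix κ κ Ω} (hC : S.Co C) (h : S.mi T = T) : S.Ev (S.c1 C T) :=
  ev_trace (SD.Ev.mul (S := (S.mat κ).toSD) h hC.cur)

theorem c1_add (C T U : Matrix κ κ Ω) : S.c1 C (T + U) = S.c1 C T + S.c1 C U := by
  simp [c1, add_mul]
theorem c2_add (C T U : Matrix κ κ Ω) : S.c2 C (T + U) = S.c2 C T + S.c2 C U := by
  simp [c2, add_mul]
theorem c1_smul (C T : Matrix κ κ Ω) (r : ℝ) : S.c1 C (r • T) = r • S.c1 C T := by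
  simp [c1]
theorem c2_smul (C T : Matrix κ κ Ω) (r : ℝ) : S.c2 C (r • T) = r • S.c2 C T := by
  simp [c2]

/-! ### intertwiners -/

variable (S) in
/-- `u (d + C) = (d + C') u` -/
structure Itw (C : Matrix κ κ Ω) (C' : Matrix κ' κ' Ω) (u : Matrix κ' κ Ω) : Prop where
  ev : S.mi u = u
  eq : S.md u + C' * u - u * C = 0

theorem Itw.md_eq {C : Matrix κ κ Ω} {C' : Matrix κ' κ' Ω} {u : Matrix κ' κ Ω}
    (h : S.Itw C C' u) : S.md u = u * C - C' * u := by
  have := h.eq
  rw [← sub_eq_zero, ← this]; abel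

theorem Itw.of_md {C : Matrix κ κ Ω} {C' : Matrix κ' κ' Ω} {u : Matrix κ' κ Ω}
    (he : S.mi u = u) (h : S.md u = u * C - C' * u) : S.Itw C C' u :=
  ⟨he, by rw [h]; abel⟩

theorem itw_iff {C T : Matrix κ κ Ω} : S.Itw C C T ↔ S.Pa C T :=
  ⟨fun h => ⟨h.1, h.2⟩, fun h => ⟨h.1, h.2⟩⟩

theorem Itw.mul {C : Matrix κ κ Ω} {C' : Matrix κ' κ' Ω} {C'' : Matrix κ'' κ'' Ω}
    {u : Matrix κ' κ Ω} {w : Matrix κ'' κ' Ω} (hw : S.Itw C' C'' w) (hu : S.Itw C C' u) :
    S.Itw C C'' (w * u) := by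
  refine Itw.of_md (by rw [S.mi_mul, hw.ev, hu.ev]) ?_
  rw [S.md_mul, hw.ev, hw.md_eq, hu.md_eq]
  simp only [Matrix.sub_mul, Matrix.mul_sub, Matrix.mul_assoc]
  abel

theorem Itw.cu {C : Matrix κ κ Ω} {C' : Matrix κ' κ' Ω} {u : Matrix κ' κ Ω}
    (hC' : S.Co C') (h : S.Itw C C' u) : u * S.cu C = S.cu C' * u := by
  have h1 := S.md_md u
  have h2 : S.mi C' = -C' := hC'
  rw [h.md_eq, S.md_sub, S.md_mul, S.md_mul, h.ev, h2, h.md_eq] at h1
  rw [cu_eq, cu_eq, ← sub_eq_zero, ← h1]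
  simp only [Matrix.sub_mul, Matrix.mul_sub, Matrix.mul_assoc, Matrix.add_mul, Matrix.mul_add,
    Matrix.neg_mul]
  abel

theorem Itw.pa {C T : Matrix κ κ Ω} {C' : Matrix κ' κ' Ω} {u : Matrix κ' κ Ω} {v : Matrix κ κ' Ω}
    (hu : S.Itw C C' u) (hv : S.Itw C' C v) (hT : S.Pa C T) : S.Pa C' (u * T * v) :=
  itw_iff.1 ((hu.mul (itw_iff.2 hT)).mul hv)

theorem Itw.tr1 {C T : Matrix κ κ Ω} {C' : Matrix κ' κ' Ω} {u : Matrix κ' κ Ω} {v : Matrix κ κ' Ω}
    (hC : S.Co C) (hu : S.Itw C C' u) (hv : S.Itw C' C v) (hT : T * (v * u) = T) :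
    S.c1 C' (u * T * v) = S.c1 C T := by
  have hp : v * u * S.cu C = S.cu C * (v * u) := (hv.mul hu).cu hC
  rw [c1, c1, Matrix.mul_assoc, hv.cu hC, Matrix.mul_assoc, S.trace_ev u _ hu.ev, Matrix.mul_assoc,
    Matrix.mul_assoc, ← hp, ← Matrix.mul_assoc, hT]

theorem Itw.tr2 {C T : Matrix κ κ Ω} {C' : Matrix κ' κ' Ω} {u : Matrix κ' κ Ω} {v : Matrix κ κ' Ω}
    (hC : S.Co C) (hu : S.Itw C C' u) (hv : S.Itw C' C v) (hT : T * (v * u) = T) :
    S.c2 C' (u * T * v) = S.c2 C T := by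
  have hp : v * u * S.cu C = S.cu C * (v * u) := (hv.mul hu).cu hC
  have h2 : v * (S.cu C' * S.cu C') = S.cu C * S.cu C * v := by
    rw [← Matrix.mul_assoc, hv.cu hC, Matrix.mul_assoc, hv.cu hC, Matrix.mul_assoc]
  have h3 : S.cu C * S.cu C * (v * u) = v * u * (S.cu C * S.cu C) := by
    rw [Matrix.mul_assoc, ← hp, ← Matrix.mul_assoc, ← hp, Matrix.mul_assoc]
  rw [c2, c2, Matrix.mul_assoc, h2, Matrix.mul_assoc, S.trace_ev u _ hu.ev, Matrix.mul_assoc,
    Matrix.mul_assoc, h3, ← Matrix.mul_assoc, hT]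

variable (S) in
/-- the transported connection -/
def tpt (C : Matrix κ κ Ω) (u : Matrix κ' κ Ω) (v : Matrix κ κ' Ω) : Matrix κ' κ' Ω :=
  u * S.md v + u * C * v - (1 - u * v) * S.md (u * v)

theorem tpt_co {C : Matrix κ κ Ω} {u : Matrix κ' κ Ω} {v : Matrix κ κ' Ω} (hC : S.Co C)
    (hu : S.mi u = u) (hv : S.mi v = v) : S.Co (S.tpt C u v) := by
  have h2 : S.mi C = -C := hC
  change S.mi _ = _
  simp only [tpt, S.mi_sub, S.mi_add, S.mi_mul, S.mi_md, hu, hv, h2, S.mi_one, Matrix.mul_neg,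
    Matrix.neg_mul]
  abel

theorem tpt_u {C : Matrix κ κ Ω} {u : Matrix κ' κ Ω} {v : Matrix κ κ' Ω}
    (hu : S.mi u = u) (hv : S.mi v = v) (hp : S.Pa C (v * u)) (h1 : u * (v * u) = u) :
    S.Itw C (S.tpt C u v) u := by
  refine ⟨hu, ?_⟩
  have e1 : S.md (v * u) = S.md v * u + v * S.md u := by rw [S.md_mul, hv]
  have h1' : u * v * u = u := by rw [Matrix.mul_assoc, h1]
  have e2 : S.md (u * v) * u + u * v * S.md u = S.md u := by
    have := S.md_mul (u * v) u
    rw [h1', S.mi_mul, hu, hv] at this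
    exact this.symm
  have e3 : (1 - u * v) * (u * v) = 0 := by
    rw [Matrix.sub_mul, Matrix.one_mul, ← Matrix.mul_assoc, h1', sub_self]
  have e4 : (1 - u * v) * (S.md (u * v) * u) = (1 - u * v) * S.md u := by
    conv_rhs => rw [← e2]
    rw [Matrix.mul_add, ← Matrix.mul_assoc _ (u * v) (S.md u), e3, Matrix.zero_mul, add_zero]
  have e5 : u * (S.md (v * u) + C * (v * u) - v * u * C) = 0 := by
    rw [(S.pa_iff.1 hp).2, Matrix.mul_zero]
  rw [e1, Matrix.mul_sub, ← Matrix.mul_assoc u (v * u) C, h1] at e5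
  rw [tpt, Matrix.sub_mul, Matrix.mul_assoc (1 - u * v), e4, ← e5]
  simp only [Matrix.sub_mul, Matrix.mul_assoc, Matrix.add_mul, Matrix.mul_add, Matrix.one_mul]
  abel

theorem tpt_v {C : Matrix κ κ Ω} {u : Matrix κ' κ Ω} {v : Matrix κ κ' Ω}
    (hv : S.mi v = v) (hp : S.Pa C (v * u)) (h1 : v * u * v = v) :
    S.Itw (S.tpt C u v) C v := by
  refine ⟨hv, ?_⟩
  have e0 : v * (1 - u * v) = 0 := by
    rw [Matrix.mul_sub, Matrix.mul_one, ← Matrix.mul_assoc, h1, sub_self]
  have e2 : S.md (v * u) * v + v * u * S.md v = S.md v := by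
    have := S.md_mul (v * u) v
    rw [h1, (S.pa_iff.1 hp).1] at this
    exact this.symm
  have e5 : (S.md (v * u) + C * (v * u) - v * u * C) * v = 0 := by
    rw [(S.pa_iff.1 hp).2, Matrix.zero_mul]
  rw [Matrix.sub_mul, Matrix.add_mul, Matrix.mul_assoc C, h1] at e5
  rw [tpt, Matrix.mul_sub, ← Matrix.mul_assoc v (1 - u * v), e0, Matrix.zero_mul, sub_zero, ← e5]
  nth_rewrite 1 [← e2]
  simp only [Matrix.mul_assoc, Matrix.mul_add]
  abel

/-! ### naturality -/

section nat

variable {Ω' : Type*} [Ring Ω'] [Algebra ℝ Ω'] {S' : SC Ω'} (φ : Ω →+* Ω')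

theorem cu_map (hd : ∀ x, φ (S.d x) = S'.d (φ x)) (C : Matrix κ κ Ω) :
    S'.cu (C.map φ) = (S.cu C).map φ := by
  rw [cu_eq, cu_eq, Matrix.map_add _ (map_add φ), Matrix.map_mul]
  congr 1
  ext i j; simp [hd]

theorem map_trace' (X : Matrix κ κ Ω) : trace (X.map φ) = φ (trace X) := by
  simp [trace, map_sum]

theorem c1_map (hd : ∀ x, φ (S.d x) = S'.d (φ x)) (C T : Matrix κ κ Ω) :
    S'.c1 (C.map φ) (T.map φ) = φ (S.c1 C T) := by
  rw [c1, c1, cu_map φ hd, ← Matrix.map_mul, map_trace']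

theorem c2_map (hd : ∀ x, φ (S.d x) = S'.d (φ x)) (C T : Matrix κ κ Ω) :
    S'.c2 (C.map φ) (T.map φ) = φ (S.c2 C T) := by
  rw [c2, c2, cu_map φ hd, ← Matrix.map_mul, ← Matrix.map_mul, map_trace']

theorem Co.map (hi : ∀ x, φ (S.inv x) = S'.inv (φ x)) {C : Matrix κ κ Ω} (h : S.Co C) :
    S'.Co (C.map φ) := by
  refine S'.co_iff.2 fun i j => ?_
  have := S.co_iff.1 h i j
  unfold SD.Od at *
  rw [Matrix.map_apply, ← hi, this, map_neg]

theorem Itw.map (hi : ∀ x, φ (S.inv x) = S'.inv (φ x)) (hd : ∀ x, φ (S.d x) = S'.d (φ x))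
    {C : Matrix κ κ Ω} {C' : Matrix κ' κ' Ω} {u : Matrix κ' κ Ω} (h : S.Itw C C' u) :
    S'.Itw (C.map φ) (C'.map φ) (u.map φ) := by
  constructor
  · ext i j
    have := congrFun (congrFun h.ev i) j
    simp only [mi_apply, Matrix.map_apply] at this ⊢
    rw [← hi, this]
  · have h1 : S'.md (u.map φ) = (S.md u).map φ := by ext i j; simp [hd]
    rw [h1, ← Matrix.map_mul, ← Matrix.map_mul, ← Matrix.map_add _ (map_add φ),
      ← Matrix.map_sub _ (map_sub φ), h.eq]
    ext i j; simp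

theorem Pa.map (hi : ∀ x, φ (S.inv x) = S'.inv (φ x)) (hd : ∀ x, φ (S.d x) = S'.d (φ x))
    {C T : Matrix κ κ Ω} (h : S.Pa C T) : S'.Pa (C.map φ) (T.map φ) :=
  itw_iff.1 ((itw_iff.2 h).map φ hi hd)

end nat

end SC

end Crest.Agent.X212.Num57
end

-- ▼ part X212/Num57/Germ

/-!
X212 / NUM (helper57), part 3: germs of smooth forms at a point form a super-commutative
differential algebra `sc I x`.
-/

set_option autoImplicit false
set_option linter.unusedSectionVars false

open Set Filter Topology Function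
open scoped ContDiff Manifold
open Crest.Agent.R208 Crest.Agent.R208.F Crest.Agent.X212.Dr59

noncomputable section

namespace Crest.Agent.X212.Num57

section ext

variable {E : Type*} [AddCommGroup E] [Module ℝ E]

theorem ext_comm (x : Ext E) : ∀ y, (x + F.inv x) * y = y * (x + F.inv x) ∧
    (x - F.inv x) * y = F.inv y * (x - F.inv x) := by
  induction x using CliffordAlgebra.left_induction with
  | algebraMap r =>
    intro y
    rw [AlgHom.commutes, sub_self, zero_mul, mul_zero, ← map_add, Algebra.commutes]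
    exact ⟨rfl, rfl⟩
  | add a b ha hb =>
    intro y
    obtain ⟨h1, h2⟩ := ha y
    obtain ⟨h3, h4⟩ := hb y
    constructor
    · rw [map_add, add_add_add_comm, add_mul, mul_add, h1, h3]
    · rw [map_add, add_sub_add_comm, add_mul, mul_add, h2, h4]
  | ι_mul a l ha =>
    intro y
    obtain ⟨h1, h2⟩ := ha y
    change (io l * a + F.inv (io l * a)) * y = y * (io l * a + F.inv (io l * a)) ∧
      (io l * a - F.inv (io l * a)) * y = F.inv y * (io l * a - F.inv (io l * a))
    rw [map_mul, inv_io, neg_mul, ← sub_eq_add_neg, sub_neg_eq_add, ← mul_sub, ← mul_add]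
    constructor
    · rw [mul_assoc, h2, ← mul_assoc, io_mul, F.inv_inv, mul_assoc]
    · rw [mul_assoc, h1, ← mul_assoc, io_mul, mul_assoc]

theorem ext_ev {x : Ext E} (h : F.inv x = x) (y : Ext E) : x * y = y * x := by
  have h1 := (ext_comm x y).1
  rw [h, ← two_smul ℝ x, smul_mul_assoc, mul_smul_comm] at h1
  exact smul_right_injective _ (two_ne_zero) h1

theorem ext_od' {x : Ext E} (h : F.inv x = -x) (y : Ext E) : x * y = F.inv y * x := by
  have h1 := (ext_comm x y).2
  rw [h, sub_neg_eq_add, ← two_smul ℝ x, smul_mul_assoc, mul_smul_comm] at h1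
  exact smul_right_injective _ (two_ne_zero) h1

theorem ext_od {x y : Ext E} (h : F.inv x = -x) (h' : F.inv y = -y) : x * y = -(y * x) := by
  rw [ext_od' h, h', neg_mul]

end ext

variable {E : Type*} [NormedAddCommGroup E] [NormedSpace ℝ E] [FiniteDimensional ℝ E]
  {H : Type*} [TopologicalSpace H] {I : ModelWithCorners ℝ E H}
  {M : Type*} [TopologicalSpace M] [ChartedSpace H M] [I.Boundaryless] [IsManifold I ∞ M]

/-- pointwise involution -/
def iv (a : M → Ext E) : M → Ext E := fun y => F.inv (a y)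

theorem wd_inv (T : E →L[ℝ] Ext E) : F.inv (wd E T) = - wd E (invL.comp T) := by
  rw [wd_apply, wd_apply, map_sum, ← Finset.sum_neg_distrib]
  refine Finset.sum_congr rfl fun i _ => ?_
  rw [map_mul, inv_io, neg_mul]
  rfl

theorem inv_dM {a : M → Ext E} {x : M} (ha : CAt I 1 a x) :
    F.inv (dM I a x) = - dM I (iv a) x := by
  have h1 : rp I x (iv a) = fun y => invL (rp I x a y) := pm_inv _ _
  rw [dM, dM, h1, F.d, wd_inv]
  exact congrArg Neg.neg (d_of_hasFDerivAt
    ((invL (E := E)).hasFDerivAt.comp _ (ha.diff one_ne_zero).hasFDerivAt)).symm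

variable (E) in
/-- germs of forms -/
def Gm (x : M) := Germ (𝓝 x) (Ext E)

instance (x : M) : Ring (Gm E x) := inferInstanceAs (Ring (Germ (𝓝 x) (Ext E)))
instance (x : M) : Module ℝ (Gm E x) := inferInstanceAs (Module ℝ (Germ (𝓝 x) (Ext E)))

instance (x : M) : Algebra ℝ (Gm E x) :=
  Algebra.ofModule
    (fun r a b => Germ.inductionOn₂ a b fun f g =>
      congrArg (Germ.ofFun) (smul_mul_assoc r f g))
    (fun r a b => Germ.inductionOn₂ a b fun f g =>
      congrArg (Germ.ofFun) (mul_smul_comm r f g))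

/-- the germ of a form -/
def gm (x : M) : (M → Ext E) →ₐ[ℝ] Gm E x :=
  AlgHom.ofLinearMap
    { toFun := fun a => (a : Germ (𝓝 x) (Ext E))
      map_add' := fun _ _ => rfl
      map_smul' := fun _ _ => rfl } rfl fun _ _ => rfl

theorem gm_eq {x : M} {a b : M → Ext E} : gm x a = gm x b ↔ a =ᶠ[𝓝 x] b := Germ.coe_eq

theorem gm_surj {x : M} (g : Gm E x) : ∃ a, gm x a = g := Germ.inductionOn g fun a => ⟨a, rfl⟩

variable (I) in
/-- `d` on germs -/
def dG (x : M) (g : Gm E x) : Gm E x :=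
  Germ.liftOn g (fun a => gm x (dM I a)) fun _ _ h => gm_eq.2 (dM_congr_nhds h)

/-- the involution on germs -/
def iG (x : M) (g : Gm E x) : Gm E x :=
  Germ.liftOn g (fun a => gm x (iv a)) fun _ _ h => gm_eq.2 (h.mono fun _ hy => congrArg F.inv hy)

theorem dG_gm (x : M) (a : M → Ext E) : dG I x (gm x a) = gm x (dM I a) := rfl
theorem iG_gm (x : M) (a : M → Ext E) : iG x (gm x a) = gm x (iv a) := rfl

variable (I) in
/-- smooth germs -/
def Sg (x : M) : Subalgebra ℝ (Gm E x) where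
  carrier := {g | ∃ a, SmAt I a x ∧ gm x a = g}
  mul_mem' := by
    rintro _ _ ⟨a, ha, rfl⟩ ⟨b, hb, rfl⟩
    exact ⟨a * b, ha.mul hb, map_mul _ _ _⟩
  add_mem' := by
    rintro _ _ ⟨a, ha, rfl⟩ ⟨b, hb, rfl⟩
    exact ⟨a + b, ha.add hb, map_add _ _ _⟩
  algebraMap_mem' r := ⟨r • 1, cAt_one.smul r, by rw [map_smul, map_one, Algebra.algebraMap_eq_smul_one]⟩

/-- a smooth germ -/
def sg {x : M} (a : M → Ext E) (h : SmAt I a x) : Sg I x := ⟨gm x a, a, h, rfl⟩

theorem sg_ind {x : M} {p : Sg I x → Prop} (h : ∀ a h, p (sg a h)) (g : Sg I x) : p g := by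
  obtain ⟨_, a, ha, rfl⟩ := g
  exact h a ha

theorem sg_eq {x : M} {a b : M → Ext E} {ha : SmAt I a x} {hb : SmAt I b x} :
    sg a ha = sg b hb ↔ a =ᶠ[𝓝 x] b := Subtype.ext_iff.trans gm_eq

theorem ev1 {x : M} {a : M → Ext E} (ha : SmAt I a x) : ∀ᶠ y in 𝓝 x, CAt I 1 a y :=
  (ha.of_le (by norm_cast)).eventually (by norm_cast)

theorem ev2 {x : M} {a : M → Ext E} (ha : SmAt I a x) : ∀ᶠ y in 𝓝 x, CAt I 2 a y :=
  (ha.of_le (by norm_cast)).eventually (by norm_cast)

/-- `d` on smooth germs -/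
def dS {x : M} (g : Sg I x) : Sg I x := ⟨dG I x g.1, by
  obtain ⟨_, a, ha, rfl⟩ := g
  exact ⟨dM I a, ha.dM, rfl⟩⟩

/-- the involution on smooth germs -/
def iS {x : M} (g : Sg I x) : Sg I x := ⟨iG x g.1, by
  obtain ⟨_, a, ha, rfl⟩ := g
  exact ⟨iv a, ha.inv, rfl⟩⟩

theorem iS_add {x : M} (g h : Sg I x) : iS (g + h) = iS g + iS h := by
  induction g using sg_ind with | _ a ha => ?_
  induction h using sg_ind with | _ b hb => ?_
  exact Subtype.ext (gm_eq.2 (Eventually.of_forall fun y => map_add F.inv (a y) (b y)))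

theorem iS_smul {x : M} (r : ℝ) (g : Sg I x) : iS (r • g) = r • iS g := by
  induction g using sg_ind with | _ a ha => ?_
  exact Subtype.ext (gm_eq.2 (Eventually.of_forall fun y => map_smul F.inv r (a y)))

theorem iS_mul {x : M} (g h : Sg I x) : iS (g * h) = iS g * iS h := by
  induction g using sg_ind with | _ a ha => ?_
  induction h using sg_ind with | _ b hb => ?_
  exact Subtype.ext (gm_eq.2 (Eventually.of_forall fun y => map_mul F.inv (a y) (b y)))

theorem iS_one {x : M} : iS (1 : Sg I x) = 1 :=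
  Subtype.ext (gm_eq.2 (Eventually.of_forall fun _ => map_one F.inv))

theorem dS_add {x : M} (g h : Sg I x) : dS (g + h) = dS g + dS h := by
  induction g using sg_ind with | _ a ha => ?_
  induction h using sg_ind with | _ b hb => ?_
  refine Subtype.ext (gm_eq.2 ?_)
  filter_upwards [ev1 ha, ev1 hb] with y h1 h2
  exact dM_add one_ne_zero h1 h2

theorem dS_smul {x : M} (r : ℝ) (g : Sg I x) : dS (r • g) = r • dS g := by
  induction g using sg_ind with | _ a ha => ?_
  refine Subtype.ext (gm_eq.2 ?_)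
  filter_upwards [ev1 ha] with y h1
  exact dM_smul one_ne_zero r h1

variable (I) in
/-- smooth germs as a super-commutative differential algebra -/
def sc (x : M) : SC (Sg I x) where
  inv := AlgHom.ofLinearMap { toFun := iS, map_add' := iS_add, map_smul' := iS_smul } iS_one iS_mul
  d := { toFun := dS, map_add' := dS_add, map_smul' := dS_smul }
  inv_inv g := by
    induction g using sg_ind with | _ a ha => ?_
    exact Subtype.ext (gm_eq.2 (Eventually.of_forall fun y => F.inv_inv (a y)))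
  inv_d g := by
    induction g using sg_ind with | _ a ha => ?_
    refine Subtype.ext (gm_eq.2 ?_)
    filter_upwards [ev1 ha] with y h1
    exact inv_dM h1
  d_mul g h := by
    induction g using sg_ind with | _ a ha => ?_
    induction h using sg_ind with | _ b hb => ?_
    refine Subtype.ext (gm_eq.2 ?_)
    filter_upwards [ev1 ha, ev1 hb] with y h1 h2
    exact dM_mul one_ne_zero h1 h2
  d_d g := by
    induction g using sg_ind with | _ a ha => ?_
    refine Subtype.ext (gm_eq.2 ?_)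
    filter_upwards [ev2 ha] with y h1
    exact dM_dM h1
  comm_ev g h := by
    induction g using sg_ind with | _ a ha => ?_
    induction h using sg_ind with | _ b hb => ?_
    intro h
    refine Subtype.ext (gm_eq.2 ?_)
    filter_upwards [gm_eq.1 (congrArg Subtype.val h)] with y h1
    exact ext_ev h1 _
  comm_od g h := by
    induction g using sg_ind with | _ a ha => ?_
    induction h using sg_ind with | _ b hb => ?_
    intro h h'
    refine Subtype.ext (gm_eq.2 ?_)
    filter_upwards [gm_eq.1 (congrArg Subtype.val h), gm_eq.1 (congrArg Subtype.val h')] with y h1 h2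
    exact ext_od h1 h2

theorem sc_d_val {x : M} (g : Sg I x) : ((sc I x).d g).1 = dG I x g.1 := rfl
theorem sc_inv_val {x : M} (g : Sg I x) : ((sc I x).inv g).1 = iG x g.1 := rfl

end Crest.Agent.X212.Num57
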